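import Vale.Agent.P272.K.Stmt
import Mathlib.LinearAlgebra.Projectivization.Basic
import Mathlib.Topology.Maps.OpenQuotient
import Mathlib.Analysis.Normed.Module.Connected
import Mathlib.Analysis.Calculus.ContDiff.Operations
import Mathlib.LinearAlgebra.Complex.FiniteDimensional

/-!
# Complex projective space as a compact connected complex manifold
-/

open scoped Manifold ContDiff Topology
open Set Function

noncomputable section

namespace Vale.Agent.P264Z

open Vale.Agent.P272.K

/-- Complex projective space of dimension `n`. -/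
def CP (n : ℕ) : Type := Projectivization ℂ (Fin (n + 1) → ℂ)

namespace CP

variable {n : ℕ}

/-- Nonzero vectors. -/
abbrev V0 (n : ℕ) : Type := {v : Fin (n + 1) → ℂ // v ≠ 0}

/-- The point with homogeneous coordinates `v`. -/
def mk (v : V0 n) : CP n := Projectivization.mk ℂ v.1 v.2

lemma mk_surjective : Surjective (mk : V0 n → CP n) := fun p =>
  ⟨⟨Projectivization.rep p, Projectivization.rep_nonzero p⟩, Projectivization.mk_rep p⟩

lemma mk_eq_iff (v w : V0 n) : mk v = mk w ↔ ∃ a : ℂ, a • w.1 = v.1 :=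
  Projectivization.mk_eq_mk_iff' ℂ v.1 w.1 v.2 w.2

/-- Homogeneous coordinates of a point. -/
def rep (p : CP n) : V0 n := ⟨Projectivization.rep p, Projectivization.rep_nonzero p⟩

@[simp] lemma mk_rep (p : CP n) : mk (rep p) = p := Projectivization.mk_rep p

lemma exists_rep (v : V0 n) : ∃ a : ℂ, a ≠ 0 ∧ (rep (mk v)).1 = a • v.1 := by
  obtain ⟨a, ha⟩ := (mk_eq_iff (rep (mk v)) v).1 (mk_rep _)
  refine ⟨a, ?_, ha.symm⟩
  rintro rfl
  exact (rep (mk v)).2 (by rw [← ha, zero_smul])

instance : TopologicalSpace (CP n) := TopologicalSpace.coinduced mk inferInstance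

lemma continuous_mk : Continuous (mk : V0 n → CP n) := continuous_coinduced_rng

/-- multiplication by a nonzero scalar -/
def sc (a : ℂ) (ha : a ≠ 0) (v : V0 n) : V0 n := ⟨a • v.1, smul_ne_zero ha v.2⟩

lemma continuous_sc (a : ℂ) (ha : a ≠ 0) : Continuous (sc a ha : V0 n → V0 n) :=
  (continuous_subtype_val.const_smul a).subtype_mk _

lemma mk_sc (a : ℂ) (ha : a ≠ 0) (v : V0 n) : mk (sc a ha v) = mk v :=
  (mk_eq_iff _ _).2 ⟨a, rfl⟩

lemma isOpenQuotientMap_mk : IsOpenQuotientMap (mk : V0 n → CP n) := by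
  refine ⟨mk_surjective, continuous_mk, fun U hU => ?_⟩
  rw [isOpen_coinduced]
  have : mk ⁻¹' (mk '' U) = ⋃ a : {a : ℂ // a ≠ 0}, sc a.1 a.2 ⁻¹' U := by
    ext v
    simp only [mem_preimage, mem_image, mem_iUnion]
    constructor
    · rintro ⟨w, hw, h⟩
      obtain ⟨a, ha⟩ := (mk_eq_iff _ _).1 h
      have h0 : a ≠ 0 := by
        rintro rfl
        exact w.2 (by rw [← ha, zero_smul])
      refine ⟨⟨a, h0⟩, ?_⟩
      have : sc a h0 v = w := Subtype.ext ha
      rwa [this]
    · rintro ⟨a, ha⟩
      exact ⟨_, ha, mk_sc _ _ _⟩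
  rw [this]
  exact isOpen_iUnion fun a => hU.preimage (continuous_sc _ _)

lemma mk_eq_iff_cross (v w : V0 n) : mk v = mk w ↔ ∀ i j, v.1 i * w.1 j = v.1 j * w.1 i := by
  rw [mk_eq_iff]
  constructor
  · rintro ⟨a, ha⟩ i j
    rw [← ha]; simp only [Pi.smul_apply, smul_eq_mul]; ring
  · intro h
    obtain ⟨j, hj⟩ := Function.ne_iff.1 w.2
    refine ⟨v.1 j / w.1 j, funext fun i => ?_⟩
    have hj' : w.1 j ≠ 0 := hj
    simp only [Pi.smul_apply, smul_eq_mul]
    field_simp
    rw [← h i j, mul_comm]

instance : T2Space (CP n) := by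
  rw [t2Space_iff_of_isOpenQuotientMap isOpenQuotientMap_mk]
  simp only [mk_eq_iff_cross, Set.ofPred_forall]
  have h : ∀ i, Continuous fun v : V0 n => v.1 i := fun i =>
    (continuous_apply i).comp continuous_subtype_val
  exact isClosed_iInter fun i => isClosed_iInter fun j => isClosed_eq
    (((h i).comp continuous_fst).mul ((h j).comp continuous_snd))
    (((h j).comp continuous_fst).mul ((h i).comp continuous_snd))

instance : CompactSpace (CP n) := by
  constructor
  have hc : IsCompact ((Subtype.val : V0 n → _) ⁻¹' Metric.sphere 0 1) := by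
    refine Topology.IsInducing.subtypeVal.isCompact_preimage' (isCompact_sphere 0 1) ?_
    intro v hv
    refine ⟨⟨v, ?_⟩, rfl⟩
    rintro rfl
    simp at hv
  have : (univ : Set (CP n)) = mk '' (Subtype.val ⁻¹' Metric.sphere 0 1) := by
    refine (eq_univ_of_forall fun p => ?_).symm
    obtain ⟨v, rfl⟩ := mk_surjective p
    have hv : (‖v.1‖ : ℂ) ≠ 0 := by simpa using v.2
    refine ⟨sc (‖v.1‖ : ℂ)⁻¹ (inv_ne_zero hv) v, ?_, mk_sc _ _ _⟩
    have hv' : ‖v.1‖ ≠ 0 := by simpa using v.2
    simp [sc, norm_smul, hv']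
  rw [this]
  exact hc.image continuous_mk

instance : ConnectedSpace (CP n) := by
  have h : IsConnected ({0}ᶜ : Set (Fin (n + 1) → ℂ)) := by
    refine isConnected_compl_singleton_of_one_lt_rank ?_ 0
    rw [← Module.finrank_eq_rank, Module.finrank_pi_fintype]
    simp only [Complex.finrank_real_complex, Finset.sum_const, Finset.card_univ, Fintype.card_fin,
      smul_eq_mul]
    norm_cast
    omega
  have : ConnectedSpace (V0 n) := isConnected_iff_connectedSpace.1 h
  exact mk_surjective.connectedSpace continuous_mk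

/-- The vector with `1` at the place `i` and the coordinates of `z` at the other places. -/
def ins (i : Fin (n + 1)) (z : Cm n) : Fin (n + 1) → ℂ := Fin.insertNth i 1 z

@[simp] lemma ins_same (i : Fin (n + 1)) (z : Cm n) : ins i z i = 1 := by simp [ins]

@[simp] lemma ins_succAbove (i : Fin (n + 1)) (z : Cm n) (j : Fin n) :
    ins i z (i.succAbove j) = z j := by simp [ins]

lemma ins_ne_zero (i : Fin (n + 1)) (z : Cm n) : ins i z ≠ 0 := fun h => by
  simpa using congrFun h i

lemma contDiff_ins (i k : Fin (n + 1)) : ContDiff ℂ ω fun z : Cm n => ins i z k := by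
  induction k using Fin.succAboveCases i with
  | x => simpa using contDiff_const
  | p j => simpa using contDiff_apply ℂ ℂ j

lemma contDiff_ins' (i : Fin (n + 1)) : ContDiff ℂ ω fun z : Cm n => ins i z :=
  contDiff_pi.2 (contDiff_ins i)

/-- The affine coordinates of a vector. -/
def aff (i : Fin (n + 1)) (v : Fin (n + 1) → ℂ) : Cm n := fun j => v (i.succAbove j) / v i

lemma aff_smul (i : Fin (n + 1)) {a : ℂ} (ha : a ≠ 0) (v : Fin (n + 1) → ℂ) :
    aff i (a • v) = aff i v := by
  funext j
  simp only [aff, Pi.smul_apply, smul_eq_mul]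
  rw [mul_div_mul_left _ _ ha]

@[simp] lemma aff_ins (i : Fin (n + 1)) (z : Cm n) : aff i (ins i z) = z := by
  funext j; simp [aff]

lemma smul_ins_aff (i : Fin (n + 1)) {v : Fin (n + 1) → ℂ} (hv : v i ≠ 0) :
    v i • ins i (aff i v) = v := by
  funext k
  induction k using Fin.succAboveCases i with
  | x => simp
  | p j => simp only [Pi.smul_apply, ins_succAbove, aff, smul_eq_mul]; field_simp

lemma aff_rep_mk (i : Fin (n + 1)) (v : V0 n) : aff i (rep (mk v)).1 = aff i v.1 := by
  obtain ⟨a, ha, h⟩ := exists_rep v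
  rw [h, aff_smul i ha]

lemma rep_mk_ne (i : Fin (n + 1)) (v : V0 n) : (rep (mk v)).1 i ≠ 0 ↔ v.1 i ≠ 0 := by
  obtain ⟨a, ha, h⟩ := exists_rep v
  rw [h]; simp [ha]

lemma contDiffAt_aff (i : Fin (n + 1)) {v : Fin (n + 1) → ℂ} (hv : v i ≠ 0) :
    ContDiffAt ℂ ω (aff i) v :=
  contDiffAt_pi.2 fun _ => (contDiffAt_apply ℂ ℂ _ v).div (contDiffAt_apply ℂ ℂ i v) hv

/-- The point with affine coordinates `z` in the chart `i`. -/
def pt (i : Fin (n + 1)) (z : Cm n) : CP n := mk ⟨ins i z, ins_ne_zero i z⟩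

/-- The standard affine chart `i`. -/
def chart (i : Fin (n + 1)) : Chart n (CP n) where
  toFun p := aff i (rep p).1
  invFun := pt i
  source := {p | (rep p).1 i ≠ 0}
  target := univ
  map_source' _ _ := mem_univ _
  map_target' z _ := (rep_mk_ne i _).2 (by simp)
  left_inv' p hp := by
    conv_rhs => rw [← mk_rep p]
    exact ((mk_eq_iff _ _).2 ⟨_, smul_ins_aff i hp⟩).symm
  right_inv' z _ := by
    show aff i (rep (mk _)).1 = z
    rw [aff_rep_mk]; simp
  open_source := by
    rw [isOpen_coinduced]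
    have : mk ⁻¹' {p : CP n | (rep p).1 i ≠ 0} = {v | v.1 i ≠ 0} := by
      ext v; exact rep_mk_ne i v
    rw [this]
    exact isOpen_ne_fun ((continuous_apply i).comp continuous_subtype_val) continuous_const
  open_target := isOpen_univ
  continuousOn_toFun := by
    intro p hp
    obtain ⟨v, rfl⟩ := mk_surjective p
    refine ContinuousAt.continuousWithinAt ?_
    rw [← isOpenQuotientMap_mk.continuousAt_comp_iff]
    have : ((fun p : CP n => aff i (rep p).1) ∘ mk) = fun v => aff i v.1 := by
      funext v; exact aff_rep_mk i v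
    rw [this]
    exact (contDiffAt_aff i ((rep_mk_ne i v).1 hp)).continuousAt.comp
      continuous_subtype_val.continuousAt
  continuousOn_invFun :=
    (continuous_mk.comp ((contDiff_ins' i).continuous.subtype_mk _)).continuousOn

@[simp] lemma chart_mk (i : Fin (n + 1)) (v : V0 n) : chart i (mk v) = aff i v.1 := aff_rep_mk i v

@[simp] lemma chart_symm (i : Fin (n + 1)) (z : Cm n) : (chart i).symm z = pt i z := rfl

@[simp] lemma chart_target (i : Fin (n + 1)) : (chart i).target = univ := rfl

lemma mem_source_mk (i : Fin (n + 1)) (v : V0 n) : mk v ∈ (chart i).source ↔ v.1 i ≠ 0 :=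
  rep_mk_ne i v

lemma exists_ne (p : CP n) : ∃ i, (rep p).1 i ≠ 0 := Function.ne_iff.1 (rep p).2

instance : ChartedSpace (Cm n) (CP n) where
  atlas := range chart
  chartAt p := chart (exists_ne p).choose
  mem_chart_source p := (exists_ne p).choose_spec
  chart_mem_atlas _ := mem_range_self _

lemma mem_atlas_iff (e : Chart n (CP n)) : e ∈ atlas (Cm n) (CP n) ↔ ∃ i, chart i = e := Iff.rfl

lemma at_pt (i : Fin (n + 1)) (z : Cm n) : At (chart i) (pt i z) :=
  ⟨mem_range_self i, (chart i).map_target (mem_univ z)⟩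

@[simp] lemma chart_pt (i : Fin (n + 1)) (z : Cm n) : chart i (pt i z) = z :=
  (chart i).right_inv (mem_univ z)

lemma chart_pt' (i k : Fin (n + 1)) (z : Cm n) : chart k (pt i z) = aff k (ins i z) :=
  chart_mk k _

instance : IsManifold 𝓘(ℂ, Cm n) ω (CP n) := by
  apply isManifold_of_contDiffOn
  rintro e e' ⟨i, rfl⟩ ⟨k, rfl⟩ z hz
  simp only [modelWithCornersSelf_coe, modelWithCornersSelf_coe_symm, Function.comp_id,
    Function.id_comp, range_id, inter_univ, preimage_id] at hz ⊢
  have hk : ins i z k ≠ 0 := (mem_source_mk k _).1 hz.2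
  have : ((chart i).symm ≫ₕ chart k : Cm n → Cm n) = fun z => aff k (ins i z) := by
    funext z; exact chart_pt' i k z
  rw [this]
  exact ((contDiffAt_aff k hk).comp z (contDiff_ins' i).contDiffAt).contDiffWithinAt

end CP

end Vale.Agent.P264Z

end
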