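import Vale.Agent.P272.K.Stmt
import Mathlib.Analysis.Calculus.ContDiff.Defs
import Mathlib.Analysis.Calculus.Deriv.Basic

/-!
# P264: scalar curvature of a Kähler metric and the Calabi flow

Everything is expressed in the charts of a complex manifold `X` modelled on `ℂⁿ = Fin n → ℂ`, with
the definitions `Cm`, `cHess`, `Chart`, `At`, `IsKahler`, `IsIntegral` of `P272/K/Stmt`.
-/

open scoped Manifold ContDiff ComplexOrder
open Set

noncomputable section

namespace Vale.Agent.P264Z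

open Vale.Agent.P272.K

variable {n : ℕ}

/-- The scalar curvature `S = tr_ω Ric(ω)` at `z` of the Kähler form `ω = i Σ g_{j k̄} dz_j ∧ dz̄_k`
with coefficient matrix `g`, where `Ric(ω) = -i∂∂̄ log det g`. -/
def scal (g : Cm n → Matrix (Fin n) (Fin n) ℂ) (z : Cm n) : ℝ :=
  ((g z)⁻¹ * -cHess (fun y => Real.log (g y).det.re) z).trace.re

variable {X : Type*} [TopologicalSpace X]

/-- The coefficient matrix of the form `ω + i∂∂̄u` in the chart `e`. -/
def addDd (w : Chart n X → Cm n → Matrix (Fin n) (Fin n) ℂ) (u : X → ℝ) (e : Chart n X)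
    (z : Cm n) : Matrix (Fin n) (Fin n) ℂ :=
  w e z + cHess (fun y => u (e.symm y)) z

variable [ChartedSpace (Cm n) X]

/-- `s` is the average `∫ S(ω) ωⁿ / ∫ ωⁿ` of the scalar curvature of `w`. -/
def IsAverageScal (w : Chart n X → Cm n → Matrix (Fin n) (Fin n) ℂ) (s : ℝ) : Prop :=
  ∃ I V : ℝ, IsIntegral (fun e z => scal (w e) z * (w e z).det.re) I ∧
    IsIntegral (fun e z => (w e z).det.re) V ∧ 0 < V ∧ s = I / V

/-- The Kähler class of `w` contains a Kähler metric `w + i∂∂̄u` (`u` smooth) of constant scalar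
curvature. -/
def ClassHasCscK (w : Chart n X → Cm n → Matrix (Fin n) (Fin n) ℂ) : Prop :=
  ∃ u : X → ℝ, (∀ (e : Chart n X) x, At e x → ContDiffAt ℝ ∞ (fun z => u (e.symm z)) (e x)) ∧
    IsKahler (addDd w u) ∧ ∃ s : ℝ, ∀ e x, At e x → scal (addDd w u e) (e x) = s

/-- `φ` is a smooth solution of the Calabi flow from `w` on the time interval `J` (which starts at
`0`), with the constant `s` in the place of the average of the scalar curvature: `φ` is smooth on
`J × X`, `φ(0) = 0`, `ω(t) = w + i∂∂̄φ(t) > 0` and `∂φ/∂t = S(ω(t)) - s`. -/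
structure IsCalabiFlow (w : Chart n X → Cm n → Matrix (Fin n) (Fin n) ℂ) (s : ℝ) (J : Set ℝ)
    (φ : ℝ → X → ℝ) : Prop where
  smooth : ∀ t ∈ J, ∀ (e : Chart n X) x, At e x →
    ContDiffWithinAt ℝ ∞ (fun p : ℝ × Cm n => φ p.1 (e.symm p.2)) (J ×ˢ univ) (t, e x)
  init : ∀ x, φ 0 x = 0
  pos : ∀ t ∈ J, ∀ e x, At e x → (addDd w (φ t) e (e x)).PosDef
  eqn : ∀ t ∈ J, ∀ e x, At e x →
    HasDerivWithinAt (fun τ => φ τ x) (scal (addDd w (φ t) e) (e x) - s) J t

end Vale.Agent.P264Z

end
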