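import Mathlib.Analysis.Matrix.Order
import Mathlib.Analysis.Matrix.Spectrum
import Mathlib.Analysis.SpecialFunctions.Log.Deriv
import Mathlib.Analysis.InnerProductSpace.Basic
import Mathlib.Algebra.Order.Chebyshev

/-!
# Simultaneous diagonalisation and the pointwise inequality of the uniqueness proof
-/

open scoped ComplexOrder MatrixOrder
open Matrix Finset

noncomputable section

namespace Vale.Agent.P264Z

variable {n : ℕ}

lemma exists_simul {g H : Matrix (Fin n) (Fin n) ℂ} (hg : g.PosDef) (hH : H.IsHermitian) :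
    ∃ (P Q : Matrix (Fin n) (Fin n) ℂ) (l : Fin n → ℝ), P * Q = 1 ∧ Q * P = 1 ∧
      g = Pᴴ * P ∧ H = Pᴴ * diagonal (fun i => (l i : ℂ)) * P := by
  obtain ⟨B, hB⟩ := CStarAlgebra.nonneg_iff_eq_star_mul_self.mp hg.posSemidef.nonneg
  have hB' : g = Bᴴ * B := hB
  have hdet : IsUnit B.det := by
    have := hg.det_pos.ne'
    rw [hB', det_mul] at this
    exact isUnit_iff_ne_zero.2 (right_ne_zero_of_mul this)
  have h1 : B * B⁻¹ = 1 := mul_nonsing_inv B hdet
  have h2 : B⁻¹ * B = 1 := nonsing_inv_mul B hdet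
  have hA : ((B⁻¹)ᴴ * H * B⁻¹).IsHermitian := isHermitian_conjTranspose_mul_mul _ hH
  set U : Matrix (Fin n) (Fin n) ℂ := hA.eigenvectorUnitary.1 with hU
  have hU1 : U * Uᴴ = 1 := (Unitary.mul_star_self_of_mem hA.eigenvectorUnitary.2)
  have hU2 : Uᴴ * U = 1 := (Unitary.star_mul_self_of_mem hA.eigenvectorUnitary.2)
  have hs : (B⁻¹)ᴴ * H * B⁻¹ = U * diagonal (fun i => (hA.eigenvalues i : ℂ)) * Uᴴ := by
    have := hA.spectral_theorem
    rw [Unitary.conjStarAlgAut_apply] at this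
    exact this
  refine ⟨Uᴴ * B, B⁻¹ * U, hA.eigenvalues, ?_, ?_, ?_, ?_⟩
  · rw [Matrix.mul_assoc, ← Matrix.mul_assoc B, h1, Matrix.one_mul, hU2]
  · rw [Matrix.mul_assoc, ← Matrix.mul_assoc U, hU1, Matrix.one_mul, h2]
  · rw [conjTranspose_mul, conjTranspose_conjTranspose, Matrix.mul_assoc, ← Matrix.mul_assoc U, hU1,
      Matrix.one_mul, hB']
  · have h3 : Bᴴ * (B⁻¹)ᴴ = 1 := by rw [← conjTranspose_mul, h2, conjTranspose_one]
    calc H = (Bᴴ * (B⁻¹)ᴴ) * H * (B⁻¹ * B) := by rw [h3, h2, Matrix.one_mul, Matrix.mul_one]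
      _ = Bᴴ * ((B⁻¹)ᴴ * H * B⁻¹) * B := by simp only [Matrix.mul_assoc]
      _ = Bᴴ * (U * diagonal (fun i => (hA.eigenvalues i : ℂ)) * Uᴴ) * B :=
        congrArg (fun M => Bᴴ * M * B) hs
      _ = _ := by
        rw [conjTranspose_mul, conjTranspose_conjTranspose]; simp only [Matrix.mul_assoc]

/-- the quantities of the uniqueness proof in terms of the eigenvalues of `g⁻¹ H` -/
lemma exists_eig {g H : Matrix (Fin n) (Fin n) ℂ} (hg : g.PosDef) (hH : H.IsHermitian) :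
    ∃ l : Fin n → ℝ, (∀ s : ℝ, (g + (s : ℂ) • H).det.re = g.det.re * ∏ i, (1 + s * l i)) ∧
      (g⁻¹ * H).trace.re = ∑ i, l i ∧ (g⁻¹ * H * (g⁻¹ * H)).trace.re = ∑ i, l i ^ 2 ∧
      ∀ W : Matrix (Fin n) (Fin n) ℂ, (g⁻¹ * H * W).trace.re ^ 2 ≤
        (∑ i, l i ^ 2) * (W * g⁻¹ * Wᴴ * g).trace.re := by
  obtain ⟨P, Q, l, h1, h2, hgP, hHP⟩ := exists_simul hg hH
  set D : Matrix (Fin n) (Fin n) ℂ := diagonal (fun i => (l i : ℂ)) with hD
  have h3 : Pᴴ * Qᴴ = 1 := by rw [← conjTranspose_mul, h2, conjTranspose_one]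
  have h4 : Qᴴ * Pᴴ = 1 := by rw [← conjTranspose_mul, h1, conjTranspose_one]
  have hinv : g⁻¹ = Q * Qᴴ := by
    apply inv_eq_left_inv
    rw [hgP, Matrix.mul_assoc, ← Matrix.mul_assoc Qᴴ, h4, Matrix.one_mul, h2]
  have hA : g⁻¹ * H = Q * D * P := by
    rw [hinv, hHP]
    calc Q * Qᴴ * (Pᴴ * D * P) = Q * (Qᴴ * Pᴴ) * D * P := by simp only [Matrix.mul_assoc]
      _ = _ := by rw [h4, Matrix.mul_one]
  have htr : ∀ M : Matrix (Fin n) (Fin n) ℂ, (Q * M * P).trace = M.trace := fun M => by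
    rw [trace_mul_comm, ← Matrix.mul_assoc, h1, Matrix.one_mul]
  refine ⟨l, fun s => ?_, ?_, ?_, fun W => ?_⟩
  · have : g + (s : ℂ) • H = Pᴴ * diagonal (fun i => ((1 + s * l i : ℝ) : ℂ)) * P := by
      have e : diagonal (fun i => ((1 + s * l i : ℝ) : ℂ)) = 1 + (s : ℂ) • D := by
        ext i j
        by_cases hij : i = j
        · subst hij; simp [hD]
        · simp [hD, hij]
      rw [e, Matrix.mul_add, Matrix.add_mul, Matrix.mul_one, ← hgP, hHP, Matrix.mul_smul,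
        Matrix.smul_mul]
    rw [this, det_mul, det_mul, det_diagonal, mul_right_comm, ← det_mul, ← hgP,
      ← Complex.ofReal_prod, Complex.re_mul_ofReal]
  · rw [hA, htr, hD, trace_diagonal, Complex.re_sum]; simp
  · have : g⁻¹ * H * (g⁻¹ * H) = Q * (D * D) * P := by
      rw [hA]
      calc Q * D * P * (Q * D * P) = Q * D * (P * Q) * D * P := by simp only [Matrix.mul_assoc]
        _ = _ := by rw [h1, Matrix.mul_one]; simp only [Matrix.mul_assoc]
    rw [this, htr, hD, diagonal_mul_diagonal, trace_diagonal, Complex.re_sum]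
    refine Finset.sum_congr rfl fun i _ => ?_
    rw [← Complex.ofReal_mul, Complex.ofReal_re, sq]
  · set V : Matrix (Fin n) (Fin n) ℂ := P * W * Q with hV
    have e1 : (g⁻¹ * H * W).trace = (D * V).trace := by
      rw [hA, hV, ← htr (D * (P * W * Q))]
      congr 1
      calc Q * D * P * W = Q * D * P * W * (Q * P) := by rw [h2, Matrix.mul_one]
        _ = _ := by simp only [Matrix.mul_assoc]
    have e2 : (W * g⁻¹ * Wᴴ * g).trace = (V * Vᴴ).trace := by
      rw [hinv, hgP, hV, ← htr (P * W * Q * (P * W * Q)ᴴ), conjTranspose_mul, conjTranspose_mul]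
      congr 1
      calc W * (Q * Qᴴ) * Wᴴ * (Pᴴ * P) = (Q * P) * W * (Q * Qᴴ) * Wᴴ * (Pᴴ * P) := by
            rw [h2, Matrix.one_mul]
        _ = _ := by simp only [Matrix.mul_assoc]
    have e3 : (D * V).trace.re = ∑ i, l i * (V i i).re := by
      rw [trace, Complex.re_sum]
      refine Finset.sum_congr rfl fun i _ => ?_
      simp [hD]
    have e4 : ∑ i, (V i i).re ^ 2 ≤ (V * Vᴴ).trace.re := by
      rw [trace, Complex.re_sum]
      refine Finset.sum_le_sum fun i _ => ?_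
      rw [diag_apply, mul_apply, Complex.re_sum]
      have h5 : ∀ j, (V i j * Vᴴ j i).re = Complex.normSq (V i j) := fun j => by
        rw [conjTranspose_apply, Complex.star_def, Complex.mul_conj, Complex.ofReal_re]
      simp only [h5]
      refine le_trans ?_ (Finset.single_le_sum (f := fun j => Complex.normSq (V i j))
        (fun j _ => Complex.normSq_nonneg _) (Finset.mem_univ i))
      rw [Complex.normSq_apply]; nlinarith [mul_self_nonneg (V i i).im]
    rw [e1, e2, e3]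
    exact (Finset.sum_mul_sq_le_sq_mul_sq _ _ _).trans
      (mul_le_mul_of_nonneg_left e4 (Finset.sum_nonneg fun i _ => sq_nonneg _))

/-- second order expansion of a product -/
lemma prod_expand {ι : Type*} [DecidableEq ι] (l : ι → ℝ) (s : Finset ι)
    (h : ∑ i ∈ s, |l i| ≤ 1) :
    |∏ i ∈ s, (1 + l i) - 1 - ∑ i ∈ s, l i - ((∑ i ∈ s, l i) ^ 2 - ∑ i ∈ s, l i ^ 2) / 2| ≤
      (∑ i ∈ s, |l i|) ^ 3 := by
  induction s using Finset.induction_on with
  | empty => simp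
  | insert j s hj ih =>
    rw [Finset.sum_insert hj] at h
    have ha0 : 0 ≤ ∑ i ∈ s, |l i| := Finset.sum_nonneg fun i _ => abs_nonneg _
    have hx0 : 0 ≤ |l j| := abs_nonneg _
    have ih := ih (by linarith)
    simp only [Finset.sum_insert hj, Finset.prod_insert hj]
    set a := ∑ i ∈ s, |l i| with ha
    set L := ∑ i ∈ s, l i with hL
    set Q := ∑ i ∈ s, l i ^ 2 with hQ
    set R := ∏ i ∈ s, (1 + l i) - 1 - L - (L ^ 2 - Q) / 2 with hR
    have hLa : |L| ≤ a := Finset.abs_sum_le_sum_abs _ _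
    have hQ0 : 0 ≤ Q := Finset.sum_nonneg fun i _ => sq_nonneg _
    have hQa : Q ≤ a ^ 2 := by
      have : Q = ∑ i ∈ s, |l i| ^ 2 := by simp [hQ]
      rw [this]
      exact Finset.sum_sq_le_sq_sum_of_nonneg fun i _ => abs_nonneg _
    have hL2 : L ^ 2 ≤ a ^ 2 := by rw [← sq_abs]; exact pow_le_pow_left₀ (abs_nonneg _) hLa 2
    have he : |(L ^ 2 - Q) / 2| ≤ a ^ 2 / 2 := by
      rw [abs_le]; constructor <;> nlinarith [sq_nonneg L]
    have key : (1 + l j) * ∏ i ∈ s, (1 + l i) - 1 - (l j + L) -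
        ((l j + L) ^ 2 - (l j ^ 2 + Q)) / 2 = R + l j * R + l j * ((L ^ 2 - Q) / 2) := by
      rw [hR]; ring
    rw [key]
    have h1 : |R + l j * R + l j * ((L ^ 2 - Q) / 2)| ≤
        |R| + |l j| * |R| + |l j| * |(L ^ 2 - Q) / 2| := by
      rw [← abs_mul, ← abs_mul]; exact abs_add_three _ _ _
    have h2 : |l j| * |R| ≤ |l j| * a ^ 2 := by
      refine mul_le_mul_of_nonneg_left (ih.trans ?_) hx0
      nlinarith [sq_nonneg a]
    have h3 := mul_le_mul_of_nonneg_left he hx0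
    nlinarith [mul_nonneg hx0 (sq_nonneg a), mul_nonneg (mul_nonneg hx0 hx0) ha0,
      mul_nonneg (mul_nonneg hx0 hx0) hx0]

lemma abs_log_add_le {x : ℝ} (h : |x| ≤ 1 / 2) : |x + Real.log (1 - x)| ≤ 2 * x ^ 2 := by
  have h1 := Real.abs_log_sub_add_sum_range_le (x := x) (by linarith) 1
  simp only [Finset.range_one, Finset.sum_singleton, zero_add, pow_one, Nat.cast_zero,
    div_one] at h1
  refine h1.trans ?_
  rw [div_le_iff₀ (by linarith), show (1 + 1 : ℕ) = 2 from rfl, sq_abs]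
  nlinarith [sq_nonneg x]

/-- the pointwise inequality for eigenvalues -/
lemma eig_ineq (l : Fin n → ℝ) {ε : ℝ} (hε : 0 ≤ ε) (hε' : (8 * (n : ℝ) ^ 2 + 2) * ε ≤ 1)
    (hQ : ∑ i, l i ^ 2 ≤ ε ^ 2) :
    (∑ i, l i) * Real.log (∏ i, (1 - l i)) + (∏ i, (1 + l i) + ∏ i, (1 - l i) - 2) ≤
      -(∑ i, l i ^ 2) / 2 := by
  have hn : (0 : ℝ) ≤ n := Nat.cast_nonneg n
  have hn2 : (n : ℝ) ≤ (n : ℝ) ^ 2 := by
    rcases Nat.eq_zero_or_pos n with h | h
    · simp [h]
    · have : (1 : ℝ) ≤ n := by exact_mod_cast h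
      nlinarith
  have hl : ∀ i, |l i| ≤ ε := fun i => by
    refine abs_le_of_sq_le_sq' ?_ hε |> abs_le.2
    exact (Finset.single_le_sum (f := fun i => l i ^ 2) (fun j _ => sq_nonneg _)
      (Finset.mem_univ i)).trans hQ
  have hε2 : ε ≤ 1 / 2 := by nlinarith [sq_nonneg (n : ℝ)]
  set a := ∑ i, |l i| with ha
  set L := ∑ i, l i with hL
  set Q := ∑ i, l i ^ 2 with hQd
  have ha0 : 0 ≤ a := Finset.sum_nonneg fun i _ => abs_nonneg _
  have hQ0 : 0 ≤ Q := Finset.sum_nonneg fun i _ => sq_nonneg _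
  have haε : a ≤ n * ε := by
    refine (Finset.sum_le_card_nsmul _ _ ε fun i _ => hl i).trans ?_
    simp
  have ha1 : a ≤ 1 := by nlinarith
  have ha2 : a ^ 2 ≤ n * Q := by
    have := sq_sum_le_card_mul_sum_sq (s := (Finset.univ : Finset (Fin n))) (f := fun i => |l i|)
    simpa [hQd] using this
  have hLa : |L| ≤ a := Finset.abs_sum_le_sum_abs _ _
  have p1 := prod_expand l Finset.univ ha1
  have p2 := prod_expand (fun i => -l i) Finset.univ (by simpa using ha1)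
  simp only [abs_neg, Finset.sum_neg_distrib, neg_sq, ← sub_eq_add_neg] at p2
  rw [← ha, ← hL, ← hQd] at p1 p2
  have hlog : |L + Real.log (∏ i, (1 - l i))| ≤ 2 * Q := by
    rw [Real.log_prod fun i _ => by have := (abs_le.1 (hl i)).2; linarith, hL,
      ← Finset.sum_add_distrib, hQd, Finset.mul_sum]
    exact (Finset.abs_sum_le_sum_abs _ _).trans
      (Finset.sum_le_sum fun i _ => abs_log_add_le ((hl i).trans hε2))
  have h1 : L * Real.log (∏ i, (1 - l i)) ≤ -L ^ 2 + a * (2 * Q) := by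
    have : L * (L + Real.log (∏ i, (1 - l i))) ≤ a * (2 * Q) :=
      (le_abs_self _).trans (by
        rw [abs_mul]; exact mul_le_mul hLa hlog (abs_nonneg _) ha0)
    nlinarith
  have h2 : a ^ 3 ≤ n * ε * (n * Q) := by
    rw [pow_succ']; exact mul_le_mul haε ha2 (sq_nonneg _) (by positivity)
  have h3 : a * (2 * Q) ≤ n * ε * (2 * Q) := mul_le_mul_of_nonneg_right haε (by positivity)
  have h4 := (abs_le.1 p1).2
  have h5 := (abs_le.1 p2).2
  have h6 : (n : ℝ) * ε * Q ≤ (n : ℝ) ^ 2 * ε * Q :=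
    mul_le_mul_of_nonneg_right (mul_le_mul_of_nonneg_right hn2 hε) hQ0
  have h7 : 8 * ((n : ℝ) ^ 2 * ε) * Q ≤ 1 * Q :=
    mul_le_mul_of_nonneg_right (by nlinarith) hQ0
  nlinarith

/-- The pointwise inequality of the uniqueness proof. -/
lemma point_ineq {g H W : Matrix (Fin n) (Fin n) ℂ} (hg : g.PosDef) (hH : H.IsHermitian)
    {ε C ψ : ℝ} (hε : 0 ≤ ε) (hε' : (8 * (n : ℝ) ^ 2 + 2) * ε ≤ 1)
    (hQ : (g⁻¹ * H * (g⁻¹ * H)).trace.re ≤ ε ^ 2) (hC : 0 < C)
    (hW : (W * g⁻¹ * Wᴴ * g).trace.re ≤ C) :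
    ψ * (g⁻¹ * H * W).trace.re * g.det.re
      - (Real.log g.det.re - Real.log (g - H).det.re) * (g⁻¹ * H).trace.re * g.det.re
      + ((g + H).det.re + (g - H).det.re - 2 * g.det.re) ≤ C / 2 * (ψ ^ 2 * g.det.re) := by
  obtain ⟨l, h1, h2, h3, h4⟩ := exists_eig hg hH
  have hd : 0 < g.det.re := (Complex.pos_iff.1 hg.det_pos).1
  have e1 : (g + H).det.re = g.det.re * ∏ i, (1 + l i) := by simpa using h1 1
  have e2 : (g - H).det.re = g.det.re * ∏ i, (1 - l i) := by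
    simpa [sub_eq_add_neg] using h1 (-1)
  rw [h3] at hQ
  have key := eig_ineq l hε hε' hQ
  have hQ0 : 0 ≤ ∑ i, l i ^ 2 := Finset.sum_nonneg fun i _ => sq_nonneg _
  have hp : ∏ i, (1 - l i) ≠ 0 := by
    refine Finset.prod_ne_zero_iff.2 fun i _ => ?_
    have : l i ^ 2 ≤ ε ^ 2 := (Finset.single_le_sum (f := fun i => l i ^ 2)
      (fun j _ => sq_nonneg _) (Finset.mem_univ i)).trans hQ
    have h5 := (abs_le.1 (abs_le_of_sq_le_sq' this hε |> abs_le.2)).2
    have : ε ≤ 1 / 2 := by nlinarith [sq_nonneg (n : ℝ)]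
    linarith
  rw [e1, e2, h2, Real.log_mul hd.ne' hp]
  set T := (g⁻¹ * H * W).trace.re
  have hT : T ^ 2 ≤ (∑ i, l i ^ 2) * C := (h4 W).trans (mul_le_mul_of_nonneg_left hW hQ0)
  have h6 : ψ * T ≤ C / 2 * ψ ^ 2 + (∑ i, l i ^ 2) / 2 := by
    have : C * (ψ * T) ≤ C * (C / 2 * ψ ^ 2 + (∑ i, l i ^ 2) / 2) := by
      nlinarith [sq_nonneg (C * ψ - T)]
    exact le_of_mul_le_mul_left this hC
  nlinarith [mul_le_mul_of_nonneg_right h6 hd.le, mul_le_mul_of_nonneg_right key hd.le]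

end Vale.Agent.P264Z

end
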