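import Vale.Agent.P264Z.G.Red

/-!
# P264: the function `Y`, the Fubini-Study form and the radial forms on projective space
-/

open scoped Manifold ContDiff ComplexOrder Topology
open Set

noncomputable section

namespace Vale.Agent.P264Z

open Vale.Agent.P272.K Red

variable {n : ℕ} {b : ℝ} {F : ℝ → ℝ}

namespace FS

lemma nsq_nonneg {ι : Type*} [Fintype ι] (z : ι → ℂ) : 0 ≤ nsq z :=
  Finset.sum_nonneg fun _ _ => sq_nonneg _

lemma nsq_pos {ι : Type*} [Fintype ι] {z : ι → ℂ} (hz : z ≠ 0) : 0 < nsq z := by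
  obtain ⟨i, hi⟩ := Function.ne_iff.1 hz
  exact Finset.sum_pos' (fun _ _ => sq_nonneg _)
    ⟨i, Finset.mem_univ i, pow_pos (norm_pos_iff.2 hi) 2⟩

lemma nsq_zero {ι : Type*} [Fintype ι] : nsq (0 : ι → ℂ) = 0 := by simp [nsq]

lemma one_add_pos (z : Cm n) : 0 < 1 + nsq z := by linarith [nsq_nonneg z]

lemma contDiff_nsq {k : WithTop ℕ∞} : ContDiff ℝ k (nsq : Cm n → ℝ) :=
  ContDiff.sum fun i _ => (contDiff_apply ℝ ℂ i).norm_sq ℝ

lemma contDiff_insR {k : WithTop ℕ∞} (i l : Fin (n + 1)) :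
    ContDiff ℝ k fun z : Cm n => CP.ins i z l :=
  ((CP.contDiff_ins i l).restrict_scalars ℝ).of_le le_top

/-- `Y` in the chart `i` -/
lemma Yc_pt (i : Fin (n + 1)) (z : Cm n) :
    Yc (CP.pt i z) = 1 - ‖CP.ins i z 0‖ ^ 2 / (1 + nsq z) := by
  unfold CP.pt
  rw [Yc_mk, nsq_ins]

lemma contDiff_Yc_pt {k : WithTop ℕ∞} (i : Fin (n + 1)) :
    ContDiff ℝ k fun z : Cm n => Yc (CP.pt i z) := by
  simp only [Yc_pt]
  exact contDiff_const.sub (((contDiff_insR i 0).norm_sq ℝ).div
    (contDiff_const.add contDiff_nsq) fun z => (one_add_pos z).ne')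

/-- the potential of `b` times the Fubini-Study form -/
lemma contDiff_pot {k : WithTop ℕ∞} (b : ℝ) :
    ContDiff ℝ k fun y : Cm n => b * Real.log (1 + nsq y) :=
  contDiff_const.mul ((contDiff_const.add contDiff_nsq).log fun z => (one_add_pos z).ne')

lemma one_add_nsq_aff (k : Fin (n + 1)) {v : Fin (n + 1) → ℂ} (hv : v k ≠ 0) :
    nsq v = ‖v k‖ ^ 2 * (1 + nsq (CP.aff k v)) := by
  rw [← nsq_ins k, ← nsq_smul, CP.smul_ins_aff k hv]

end FS

open FS

theorem Yc_pt0 (z : Cm n) : Yc (CP.pt 0 z) = nsq z / (1 + nsq z) := by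
  rw [Yc_pt, CP.ins_same, norm_one, eq_div_iff (one_add_pos z).ne']
  have := (one_add_pos z).ne'
  field_simp
  ring

theorem smoothFn_Yc (hF : ContDiff ℝ ∞ F) : SmoothFn (n := n) (fun p : CP n => F (Yc p)) := by
  rintro e x ⟨⟨i, rfl⟩, -⟩
  exact (hF.comp (contDiff_Yc_pt i)).contDiffAt

theorem exists_Yc [NeZero n] {y : ℝ} (hy : y ∈ Ioo (0 : ℝ) 1) :
    ∃ z : Cm n, z ≠ 0 ∧ Yc (CP.pt 0 z) = y := by
  have h1 : 0 < 1 - y := sub_pos.2 hy.2
  have h2 : 0 < y / (1 - y) := div_pos hy.1 h1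
  refine ⟨ln n (Real.sqrt (y / (1 - y))), fun h => ?_, ?_⟩
  · have h3 := nsq_ln (n := n) (Real.sqrt (y / (1 - y)))
    rw [h, nsq_zero, Real.sq_sqrt h2.le] at h3
    exact h2.ne h3
  · rw [Yc_zero, Real.sq_sqrt h2.le]
    field_simp
    ring

/-- The Fubini-Study form is a closed form. -/
theorem isForm_fs (b : ℝ) : IsForm (fs (n := n) b) := by
  intro e e' x h h'
  obtain ⟨i, rfl⟩ := h.1
  obtain ⟨k, rfl⟩ := h'.1
  have hx : CP.pt i (CP.chart i x) = x := h.left_inv
  have hk : CP.ins i (CP.chart i x) k ≠ 0 := by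
    have h2 := h'.2
    rw [← hx] at h2
    exact (CP.mem_source_mk k _).1 h2
  have hol : ContDiffAt ℂ ω (fun y : Cm n => CP.ins i y k) (CP.chart i x) :=
    (CP.contDiff_ins i k).contDiffAt
  have h1 : (fun y : Cm n => b * Real.log (1 + nsq y)) =ᶠ[𝓝 (CP.chart i x)] fun y =>
      b * Real.log (1 + nsq (CP.chart k ((CP.chart i).symm y))) +
        b * Real.log (‖CP.ins i y k‖ ^ 2) := by
    filter_upwards [hol.continuousAt.eventually_ne hk] with y hy
    rw [CP.chart_symm, CP.chart_pt', ← nsq_ins i, one_add_nsq_aff k hy,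
      Real.log_mul (pow_ne_zero 2 (norm_ne_zero_iff.2 hy)) (one_add_pos _).ne']
    ring
  have h2 : CP.chart k ((CP.chart i).symm (CP.chart i x)) = CP.chart k x := by rw [h.left_inv]
  have h3 : ContDiffAt ℝ 2 (fun y : Cm n => Real.log (‖CP.ins i y k‖ ^ 2)) (CP.chart i x) :=
    ((contDiff_insR i k).contDiffAt.norm_sq ℝ).log (pow_ne_zero 2 (norm_ne_zero_iff.2 hk))
  have h5 : ContDiffAt ℝ 2 (fun z => CP.chart k ((CP.chart i).symm z)) (CP.chart i x) :=
    ((transition h h').restrict_scalars ℝ).of_le (by exact le_top)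
  have h4 : ContDiffAt ℝ 2
      (fun y => b * Real.log (1 + nsq (CP.chart k ((CP.chart i).symm y)))) (CP.chart i x) :=
    ContDiffAt.comp (CP.chart i x) (g := fun y : Cm n => b * Real.log (1 + nsq y))
      (contDiff_pot b).contDiffAt h5
  unfold fs
  rw [cHess_congr h1, cHess_add h4 (contDiffAt_const.mul h3), cHess_const_mul b h3,
    cHess_log_norm_sq hol hk, smul_zero, add_zero]
  have := cHess_comp (τ := fun z => CP.chart k ((CP.chart i).symm z))
    (f := fun y : Cm n => b * Real.log (1 + nsq y)) (z := CP.chart i x)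
    (contDiff_pot b).contDiffAt (transition h h')
  rw [h2] at this
  exact this

theorem isClosedForm_fs (b : ℝ) : INT.IsClosedForm (fs (n := n) b) where
  smooth _ _ _ i j := INT.smooth_cHess (contDiff_pot b).contDiffAt i j
  form := isForm_fs b
  closed _ _ _ i k l := INT.cHess_closed (contDiff_pot b).contDiffAt i k l

theorem isClosedForm_wF (b : ℝ) (hF : ContDiff ℝ ∞ F) : INT.IsClosedForm (wF (n := n) b F) := by
  have h := (isClosedForm_fs (n := n) b).add (INT.isClosedForm_cHess (smoothFn_Yc hF))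
  unfold wF addDd
  exact h

/-- The form `wF b F` in the chart `i` is the complex Hessian of a potential. -/
theorem wF_chart (b : ℝ) (hF : ContDiff ℝ ∞ F) (i : Fin (n + 1)) (z : Cm n) :
    wF b F (CP.chart i) z =
      cHess (fun y => b * Real.log (1 + nsq y) + F (Yc (CP.pt i y))) z := by
  have h : ContDiffAt ℝ 2 (fun y : Cm n => F (Yc (CP.pt i y))) z :=
    ((hF.of_le INT.two_le_inf).comp (contDiff_Yc_pt i)).contDiffAt
  rw [cHess_add (contDiff_pot b).contDiffAt h]
  unfold wF addDd fs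
  simp only [CP.chart_symm]

/-- the radial potential in the chart `0` -/
def Gpot (b : ℝ) (F : ℝ → ℝ) (r : ℝ) : ℝ := b * Real.log (1 + r) + F (r / (1 + r))

/-- The form `wF b F` in the chart `0` is the complex Hessian of a radial function. -/
theorem wF_chart0 (b : ℝ) (hF : ContDiff ℝ ∞ F) :
    wF (n := n) b F (CP.chart 0) = cHess fun y => Gpot b F (nsq y) := by
  funext z
  rw [wF_chart b hF]
  simp only [Yc_pt0, Gpot]

theorem contDiffAt_Gpot (b : ℝ) (hF : ContDiff ℝ ∞ F) {r : ℝ} (hr : -1 < r) :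
    ContDiffAt ℝ ∞ (Gpot b F) r := by
  have h : 1 + r ≠ 0 := by linarith
  exact (contDiffAt_const.mul ((contDiffAt_const.add contDiffAt_id).log h)).add
    (hF.contDiffAt.comp r (contDiffAt_id.div (contDiffAt_const.add contDiffAt_id) h))

theorem FS.hasDerivAt_frac {r : ℝ} (hr : -1 < r) :
    HasDerivAt (fun r : ℝ => r / (1 + r)) (1 / (1 + r) ^ 2) r := by
  have h : 1 + r ≠ 0 := by linarith
  have h1 : HasDerivAt (fun r : ℝ => 1 + r) 1 r := (hasDerivAt_id r).const_add 1
  exact ((hasDerivAt_id' r).fun_div h1 h).congr_deriv (by congr 1; ring)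

theorem hasDerivAt_Gpot (b : ℝ) (hF : ContDiff ℝ ∞ F) {r : ℝ} (hr : -1 < r) :
    HasDerivAt (Gpot b F) (b / (1 + r) + deriv F (r / (1 + r)) / (1 + r) ^ 2) r := by
  have h : 1 + r ≠ 0 := by linarith
  have h1 : HasDerivAt (fun r : ℝ => 1 + r) 1 r := (hasDerivAt_id r).const_add 1
  have h2 := hasDerivAt_frac hr
  have h3 := ((hF.differentiable (by simp)) (r / (1 + r))).hasDerivAt.comp r h2
  exact (((h1.log h).const_mul b).add h3).congr_deriv (by ring)

/-- `r G'(r)` is the moment map. -/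
theorem mul_deriv_Gpot (b : ℝ) (hF : ContDiff ℝ ∞ F) {r : ℝ} (hr : -1 < r) :
    r * deriv (Gpot b F) r = mom b F (r / (1 + r)) := by
  have h : 1 + r ≠ 0 := by linarith
  rw [(hasDerivAt_Gpot b hF hr).deriv, mom]
  field_simp
  ring

theorem contDiff_mom (b : ℝ) (hF : ContDiff ℝ ∞ F) : ContDiff ℝ ∞ (mom b F) :=
  (contDiff_const.mul contDiff_id).add
    ((contDiff_id.mul (contDiff_const.sub contDiff_id)).mul (contDiff_infty_iff_deriv.1 hF).2)

/-- `(r G'(r))' = G' + r G''` in terms of the moment map. -/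
theorem deriv_add_Gpot (b : ℝ) (hF : ContDiff ℝ ∞ F) {r : ℝ} (hr : -1 < r) :
    deriv (Gpot b F) r + deriv (deriv (Gpot b F)) r * r =
      deriv (mom b F) (r / (1 + r)) / (1 + r) ^ 2 := by
  have h : 1 + r ≠ 0 := by linarith
  have h2 := hasDerivAt_frac hr
  have h3 := (((contDiff_mom b hF).differentiable (by simp)) (r / (1 + r))).hasDerivAt.comp r h2
  have h4 : DifferentiableAt ℝ (deriv (Gpot b F)) r :=
    (((contDiffAt_Gpot b hF hr).of_le INT.two_le_inf).derivWithin (m := 1)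
      (by norm_num)).differentiableAt (by norm_num)
  have h5 := (hasDerivAt_id r).mul h4.hasDerivAt
  have h6 : (fun s => mom b F (s / (1 + s))) =ᶠ[𝓝 r] fun s => s * deriv (Gpot b F) s := by
    filter_upwards [lt_mem_nhds hr] with s hs
    exact (mul_deriv_Gpot b hF hs).symm
  have h7 := (h5.congr_of_eventuallyEq h6).unique h3
  simp only [id] at h7
  rw [div_eq_mul_one_div, ← h7]
  ring

end Vale.Agent.P264Z

end
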