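import Vale.Agent.P264Z.G.Pull
import Mathlib.LinearAlgebra.Matrix.SchurComplement

/-!
# Radial Kähler potentials on `ℂⁿ`
-/

open scoped Manifold ContDiff ComplexOrder Topology
open Set Filter

noncomputable section

namespace Vale.Agent.P264Z

open Vale.Agent.P272.K

variable {n : ℕ} {z : Cm n} {f : ℝ → ℝ} {Y : Cm n → ℝ} {α β α' β' : ℝ}

lemma fderiv_real_comp (hf : DifferentiableAt ℝ f (Y z)) (hY : DifferentiableAt ℝ Y z) (v : Cm n) :
    fderiv ℝ (fun y => (f (Y y) : ℂ)) z v =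
      (deriv f (Y z) : ℝ) * fderiv ℝ (fun y => (Y y : ℂ)) z v := by
  have h1 : HasFDerivAt (fun y => (f (Y y) : ℂ)) _ z := Complex.ofRealCLM.hasFDerivAt.comp z
    (hf.hasDerivAt.comp_hasFDerivAt z hY.hasFDerivAt)
  have h2 : HasFDerivAt (fun y => (Y y : ℂ)) _ z :=
    Complex.ofRealCLM.hasFDerivAt.comp z hY.hasFDerivAt
  rw [h1.fderiv, h2.fderiv]
  simp

lemma dz_real_comp (hf : DifferentiableAt ℝ f (Y z)) (hY : DifferentiableAt ℝ Y z) (i : Fin n) :
    dz i (fun y => (f (Y y) : ℂ)) z = (deriv f (Y z) : ℝ) * dz i (fun y => (Y y : ℂ)) z := by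
  unfold dz
  rw [fderiv_real_comp hf hY, fderiv_real_comp hf hY]; ring

lemma dzb_real_comp (hf : DifferentiableAt ℝ f (Y z)) (hY : DifferentiableAt ℝ Y z) (i : Fin n) :
    dzb i (fun y => (f (Y y) : ℂ)) z = (deriv f (Y z) : ℝ) * dzb i (fun y => (Y y : ℂ)) z := by
  unfold dzb
  rw [fderiv_real_comp hf hY, fderiv_real_comp hf hY]; ring

lemma contDiffAt_deriv_one {x : ℝ} (hf : ContDiffAt ℝ 2 f x) : ContDiffAt ℝ 1 (deriv f) x :=
  (hf.fderiv_right (m := 1) (by norm_num)).clm_apply contDiffAt_const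

lemma cHess_real_comp (hf : ContDiffAt ℝ 2 f (Y z)) (hY : ContDiffAt ℝ 2 Y z) :
    cHess (fun y => f (Y y)) z = ((deriv f (Y z) : ℝ) : ℂ) • cHess Y z +
      ((deriv (deriv f) (Y z) : ℝ) : ℂ) •
        Matrix.of fun i j => dz i (fun y => (Y y : ℂ)) z * dzb j (fun y => (Y y : ℂ)) z := by
  ext j k
  have h1 : dzb k (fun y => (f (Y y) : ℂ)) =ᶠ[𝓝 z]
      fun y => ((deriv f (Y y) : ℝ) : ℂ) * dzb k (fun y => (Y y : ℂ)) y := by
    filter_upwards [hY.eventually (by simp), hY.continuousAt.eventually (hf.eventually (by simp))]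
      with y h2 h3
    exact dzb_real_comp (h3.differentiableAt (by norm_num)) (h2.differentiableAt (by norm_num)) k
  have h2 : DifferentiableAt ℝ (deriv f) (Y z) :=
    (contDiffAt_deriv_one hf).differentiableAt (by norm_num)
  have h3 : DifferentiableAt ℝ Y z := hY.differentiableAt (by norm_num)
  rw [cHess_apply, dz_congr h1, dz_mul (f := fun y => ((deriv f (Y y) : ℝ) : ℂ))
    (Complex.ofRealCLM.differentiableAt.comp z (h2.comp z h3))
    (differentiableAt_dzb (ofReal_contDiffAt hY)), dz_real_comp h2 h3]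
  simp only [Matrix.add_apply, Matrix.smul_apply, Matrix.of_apply, smul_eq_mul, cHess_apply]
  ring

lemma nsq_nonneg {ι : Type*} [Fintype ι] (z : ι → ℂ) : 0 ≤ nsq z :=
  Finset.sum_nonneg fun _ _ => sq_nonneg _

lemma nsq_pos {ι : Type*} [Fintype ι] {z : ι → ℂ} (hz : z ≠ 0) : 0 < nsq z := by
  obtain ⟨i, hi⟩ := Function.ne_iff.1 hz
  exact Finset.sum_pos' (fun _ _ => sq_nonneg _) ⟨i, Finset.mem_univ i, by positivity⟩

lemma nsq_coe {ι : Type*} [Fintype ι] (z : ι → ℂ) : (nsq z : ℂ) = ∑ i, z i * cj (z i) := by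
  simp only [nsq, Complex.ofReal_sum, Complex.mul_conj, Complex.normSq_eq_norm_sq]

lemma contDiff_nsq {ι : Type*} [Fintype ι] : ContDiff ℝ ∞ (nsq : (ι → ℂ) → ℝ) :=
  ContDiff.sum fun i _ => (contDiff_apply ℝ ℂ i).norm_sq ℝ

lemma dz_coord (i k : Fin n) : dz i (fun y : Cm n => y k) z = if k = i then 1 else 0 := by
  have := congrFun (congrFun (jmat_id z) k) i
  rwa [Matrix.one_apply] at this

lemma dzb_coord (i k : Fin n) : dzb i (fun y : Cm n => y k) z = 0 :=
  dzb_of_holo (differentiableAt_apply k z)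

lemma dz_nsq (i : Fin n) : dz i (fun y : Cm n => (nsq y : ℂ)) z = cj (z i) := by
  have d : ∀ k, DifferentiableAt ℝ (fun y : Cm n => y k) z := fun k => differentiableAt_apply k z
  have d' : ∀ k, DifferentiableAt ℝ (fun y : Cm n => cj (y k)) z := fun k =>
    Complex.conjCLE.differentiableAt.comp z (d k)
  simp only [nsq_coe]
  rw [dz_sum (F := fun k y => y k * cj (y k)) _ fun k _ => (d k).mul (d' k)]
  simp [fun k => dz_mul (i := i) (d k) (d' k), fun k => dz_cj (i := i) (d k), dz_coord, dzb_coord]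

lemma dzb_nsq (i : Fin n) : dzb i (fun y : Cm n => (nsq y : ℂ)) z = z i := by
  have d : ∀ k, DifferentiableAt ℝ (fun y : Cm n => y k) z := fun k => differentiableAt_apply k z
  have d' : ∀ k, DifferentiableAt ℝ (fun y : Cm n => cj (y k)) z := fun k =>
    Complex.conjCLE.differentiableAt.comp z (d k)
  simp only [nsq_coe]
  rw [dzb_sum (F := fun k y => y k * cj (y k)) _ fun k _ => (d k).mul (d' k)]
  simp [fun k => dzb_mul (i := i) (d k) (d' k), fun k => dzb_cj (i := i) (d k), dz_coord, dzb_coord]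

lemma cHess_nsq : cHess nsq z = 1 := by
  ext j k
  rw [cHess_apply, show dzb k (fun y : Cm n => (nsq y : ℂ)) = fun y => y k from
    funext fun y => dzb_nsq k, dz_coord, Matrix.one_apply]
  simp only [eq_comm]

/-- the matrix `(z̄_i z_j)` -/
def zz (z : Cm n) : Matrix (Fin n) (Fin n) ℂ := Matrix.of fun i j => cj (z i) * z j

/-- the matrix `α δ_ij + β z̄_i z_j` -/
def rad (α β : ℝ) (z : Cm n) : Matrix (Fin n) (Fin n) ℂ := (α : ℂ) • 1 + (β : ℂ) • zz z

lemma cHess_radial (hf : ContDiffAt ℝ 2 f (nsq z)) :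
    cHess (fun y => f (nsq y)) z = rad (deriv f (nsq z)) (deriv (deriv f) (nsq z)) z := by
  rw [cHess_real_comp hf (contDiff_nsq.contDiffAt.of_le two_le), cHess_nsq]
  simp only [dz_nsq, dzb_nsq]
  rfl

lemma zz_mul : zz z * zz z = (nsq z : ℂ) • zz z := by
  ext i j
  simp only [zz, Matrix.mul_apply, Matrix.of_apply, Matrix.smul_apply, nsq_coe, smul_eq_mul,
    Finset.sum_mul]
  exact Finset.sum_congr rfl fun k _ => by ring

lemma rad_mul : rad α β z * rad α' β' z = rad (α * α') (α * β' + β * α' + β * β' * nsq z) z := by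
  simp only [rad, Matrix.add_mul, Matrix.mul_add, Matrix.smul_mul, Matrix.mul_smul, zz_mul,
    Matrix.one_mul, Matrix.mul_one, smul_smul]
  push_cast
  module

lemma trace_rad : (rad α β z).trace.re = n * α + β * nsq z := by
  have : (zz z).trace = (nsq z : ℂ) := by
    simp only [Matrix.trace, zz, Matrix.diag_apply, Matrix.of_apply, nsq_coe, mul_comm]
  rw [rad, Matrix.trace_add, Matrix.trace_smul, Matrix.trace_smul, this, Matrix.trace_one]
  simp [mul_comm]

lemma rad_inv (hα : α ≠ 0) (hγ : α + β * nsq z ≠ 0) :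
    (rad α β z)⁻¹ = rad (1 / α) (-β / (α * (α + β * nsq z))) z := by
  refine Matrix.inv_eq_right_inv ?_
  rw [rad_mul, show α * (1 / α) = 1 by field_simp, show α * (-β / (α * (α + β * nsq z))) +
    β * (1 / α) + β * (-β / (α * (α + β * nsq z))) * nsq z = 0 by field_simp; ring]
  simp [rad]

lemma trace_rad_inv (hα : α ≠ 0) (hγ : α + β * nsq z ≠ 0) :
    ((rad α β z)⁻¹ * rad α' β' z).trace.re =
      (n - 1) * α' / α + (α' + nsq z * β') / (α + β * nsq z) := by
  rw [rad_inv hα hγ, rad_mul, trace_rad]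
  field_simp
  ring

lemma det_rad (hα : α ≠ 0) : (rad α β z).det.re = α ^ n * ((α + β * nsq z) / α) := by
  have hα' : (α : ℂ) ≠ 0 := Complex.ofReal_ne_zero.2 hα
  have : rad α β z = (α : ℂ) • (1 + Matrix.replicateCol Unit (fun i => β / α * cj (z i)) *
      Matrix.replicateRow Unit z) := by
    ext i j
    simp only [rad, zz, Matrix.add_apply, Matrix.smul_apply, Matrix.of_apply, smul_eq_mul,
      Matrix.mul_apply, Matrix.replicateCol_apply, Matrix.replicateRow_apply, Finset.univ_unique,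
      Finset.sum_singleton]
    field_simp
  rw [this, Matrix.det_smul, Matrix.det_one_add_replicateCol_mul_replicateRow, Fintype.card_fin]
  have h2 : (α : ℂ) ^ n * (1 + z ⬝ᵥ fun i => β / α * cj (z i)) =
      ((α ^ n * ((α + β * nsq z) / α) : ℝ) : ℂ) := by
    push_cast
    rw [nsq_coe, dotProduct, Finset.mul_sum, add_div, div_self hα', Finset.sum_div]
    congr 2
    exact Finset.sum_congr rfl fun i _ => by ring
  rw [h2, Complex.ofReal_re]

lemma quad_rad (ξ : Cm n) :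
    (quad (rad α β z) ξ).re = α * nsq ξ + β * ‖∑ i, cj (z i) * ξ i‖ ^ 2 := by
  have : quad (rad α β z) ξ = ((α * nsq ξ + β * ‖∑ i, cj (z i) * ξ i‖ ^ 2 : ℝ) : ℂ) := by
    rw [Complex.ofReal_add, Complex.ofReal_mul, Complex.ofReal_mul, ← Complex.normSq_eq_norm_sq,
      ← Complex.mul_conj, nsq_coe, map_sum, Finset.sum_mul_sum]
    simp only [quad, rad, zz, Matrix.add_apply, Matrix.smul_apply, Matrix.of_apply, smul_eq_mul,
      add_mul, Finset.sum_add_distrib, Matrix.one_apply, mul_ite, ite_mul, mul_one, mul_zero,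
      zero_mul, Finset.sum_ite_eq, Finset.mem_univ, if_true, Finset.mul_sum, map_mul,
      Complex.conj_conj]
    congr 1
    exact Finset.sum_congr rfl fun i _ => Finset.sum_congr rfl fun j _ => by ring
  rw [this, Complex.ofReal_re]

lemma cs_nsq (ξ : Cm n) : ‖∑ i, cj (z i) * ξ i‖ ^ 2 ≤ nsq z * nsq ξ := by
  refine le_trans ?_ (Finset.sum_mul_sq_le_sq_mul_sq Finset.univ (fun i => ‖z i‖) fun i => ‖ξ i‖)
  refine pow_le_pow_left₀ (norm_nonneg _) ((norm_sum_le _ _).trans (le_of_eq ?_)) 2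
  simp

lemma rad_isHermitian : (rad α β z).IsHermitian := by
  ext i j
  by_cases h : i = j <;> simp [rad, zz, h, eq_comm, mul_comm]

lemma rad_posDef (hα : 0 < α) (hγ : 0 < α + β * nsq z) : (rad α β z).PosDef := by
  refine posDef_of_quad rad_isHermitian fun ξ hξ => ?_
  rw [quad_rad]
  have h1 := nsq_pos hξ
  rcases le_total 0 β with h | h
  · positivity
  · nlinarith [mul_le_mul_of_nonpos_left (cs_nsq (z := z) ξ) h, mul_pos hγ h1]

lemma pos_of_rad_posDef [NeZero n] (h : (rad α β z).PosDef) : 0 < α + β * nsq z := by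
  by_cases hz : z = 0
  · subst hz
    have h0 : (Pi.single 0 1 : Cm n) ≠ 0 := fun h => by simpa using congrFun h 0
    have h1 := quad_pos h h0
    rw [quad_rad] at h1
    simp only [Pi.zero_apply, map_zero, zero_mul, Finset.sum_const_zero, norm_zero] at h1
    have h2 := nsq_pos h0
    have : nsq (0 : Cm n) = 0 := by simp [nsq]
    rw [this]
    nlinarith
  · have h1 := quad_pos h hz
    have h2 : ‖∑ i, cj (z i) * z i‖ = nsq z := by
      rw [show ∑ i, cj (z i) * z i = (nsq z : ℂ) by simp only [nsq_coe, mul_comm],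
        Complex.norm_real, Real.norm_eq_abs, abs_of_nonneg (nsq_nonneg z)]
    rw [quad_rad, h2] at h1
    have h3 := nsq_pos hz
    nlinarith

lemma radial_1d {x m L : ℝ → ℝ} {r : ℝ} (hr : 0 < r) (hx : ContDiffAt ℝ ∞ x r)
    (hm : ContDiff ℝ ∞ m) (hx0 : 0 < x r) (hx1 : 0 < deriv x r)
    (hrel : ∀ᶠ ρ in 𝓝 r, ρ * deriv x ρ = x ρ - x ρ ^ 2 * m (x ρ))
    (hL : L =ᶠ[𝓝 r] fun ρ => Real.log ((x ρ / ρ) ^ n * (deriv x ρ / (x ρ / ρ)))) :
    (n - 1) * deriv L r / (x r / r) + (deriv L r + r * deriv (deriv L) r) / deriv x r =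
      -Mop n m (x r) := by
  have hm1 : ∀ y, HasDerivAt m (deriv m y) y := fun y =>
    (hm.differentiable (by simp) y).hasDerivAt
  have hm2 : HasDerivAt (deriv m) (deriv (deriv m) (x r)) (x r) :=
    ((contDiff_infty_iff_deriv.1 hm).2.differentiable (by simp) _).hasDerivAt
  have hx2 : ContDiffAt ℝ 2 x r := hx.of_le two_le
  have e0 : ∀ᶠ ρ in 𝓝 r, 0 < ρ ∧ 0 < x ρ ∧ 0 < deriv x ρ ∧ HasDerivAt x (deriv x ρ) ρ := by
    filter_upwards [lt_mem_nhds hr, hx.continuousAt.eventually (lt_mem_nhds hx0),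
      (contDiffAt_deriv_one hx2).continuousAt.eventually (lt_mem_nhds hx1),
      hx2.eventually (by simp)] with ρ h1 h2 h3 h4
    exact ⟨h1, h2, h3, (h4.differentiableAt (by norm_num)).hasDerivAt⟩
  have e1 : L =ᶠ[𝓝 r] fun ρ => (n - 1) * (Real.log (x ρ) - Real.log ρ) +
      (Real.log (x ρ - x ρ ^ 2 * m (x ρ)) - Real.log ρ) := by
    filter_upwards [hL, hrel, e0] with ρ h1 h2 ⟨h3, h4, h5, _⟩
    rw [h1, ← h2, Real.log_mul (by positivity) (by positivity), Real.log_pow,
      Real.log_div h5.ne' (by positivity), Real.log_div h4.ne' h3.ne', Real.log_mul h3.ne' h5.ne']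
    ring
  have e2 : deriv L =ᶠ[𝓝 r]
      fun ρ => (-(n + 1) * (x ρ * m (x ρ)) - x ρ ^ 2 * deriv m (x ρ)) / ρ := by
    filter_upwards [e1.eventuallyEq_nhds, hrel, e0] with ρ h1 h2 ⟨h3, h4, h5, h6⟩
    have h7 : x ρ - x ρ ^ 2 * m (x ρ) ≠ 0 := by rw [← h2]; positivity
    have := (((h6.log h4.ne').sub (Real.hasDerivAt_log h3.ne')).const_mul ((n : ℝ) - 1)).add
      (((h6.sub ((h6.pow 2).mul ((hm1 _).comp ρ h6))).log h7).sub (Real.hasDerivAt_log h3.ne'))
    rw [(this.congr_of_eventuallyEq h1).deriv]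
    have h8 : deriv x ρ = (x ρ - x ρ ^ 2 * m (x ρ)) / ρ := by rw [← h2]; field_simp
    simp only [Pi.sub_apply, Pi.mul_apply, Pi.pow_apply, Function.comp_apply]
    rw [h8]
    have h9 : 1 - x ρ * m (x ρ) ≠ 0 := fun h => h7 (by linear_combination x ρ * h)
    field_simp
    ring
  obtain ⟨-, -, -, h6⟩ := e0.self_of_nhds
  have := ((((h6.mul ((hm1 _).comp r h6)).const_mul (-((n : ℝ) + 1))).sub
    ((h6.pow 2).mul (hm2.comp r h6))).div (hasDerivAt_id r) hr.ne')
  rw [(this.congr_of_eventuallyEq e2).deriv, e2.eq_of_nhds]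
  simp only [Pi.sub_apply, Pi.mul_apply, Pi.pow_apply, Function.comp_apply, id, Mop]
  field_simp
  ring

/-- scalar curvature of a radial metric -/
theorem scal_radial {G m : ℝ → ℝ} {g : Cm n → Matrix (Fin n) (Fin n) ℂ} (hz : z ≠ 0)
    (hG : ∀ᶠ r in 𝓝 (nsq z), ContDiffAt ℝ ∞ G r) (hm : ContDiff ℝ ∞ m)
    (h1 : 0 < deriv G (nsq z)) (h2 : 0 < deriv (fun r => r * deriv G r) (nsq z))
    (hrel : ∀ᶠ ρ in 𝓝 (nsq z), ρ * deriv (fun r => r * deriv G r) ρ =
      ρ * deriv G ρ - (ρ * deriv G ρ) ^ 2 * m (ρ * deriv G ρ))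
    (hg : g =ᶠ[𝓝 z] cHess fun y => G (nsq y)) : scal g z = Mop n m (nsq z * deriv G (nsq z)) := by
  have hr := nsq_pos hz
  have d1 : ∀ {f : ℝ → ℝ} {r : ℝ}, ContDiffAt ℝ ∞ f r → ContDiffAt ℝ ∞ (deriv f) r := fun h =>
    (h.fderiv_right (m := ∞) (by simp)).clm_apply contDiffAt_const
  have hd : ∀ r, ContDiffAt ℝ ∞ G r →
      deriv (fun r => r * deriv G r) r = deriv G r + deriv (deriv G) r * r := fun r h => by
    rw [((hasDerivAt_id' r).fun_mul ((d1 h).differentiableAt (by simp)).hasDerivAt).deriv]; ring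
  have hG0 := hG.self_of_nhds
  set L : ℝ → ℝ := fun r => Real.log (deriv G r ^ n *
    ((deriv G r + deriv (deriv G) r * r) / deriv G r)) with hL
  have h3 : 0 < deriv G (nsq z) + deriv (deriv G) (nsq z) * nsq z := by rwa [hd _ hG0] at h2
  have hLs : ContDiffAt ℝ ∞ L (nsq z) := (((d1 hG0).pow n).mul
    (((d1 hG0).add ((d1 (d1 hG0)).mul contDiffAt_id)).div (d1 hG0) h1.ne')).log
      (mul_pos (pow_pos h1 n) (div_pos h3 h1)).ne'
  have ev : ∀ᶠ r in 𝓝 (nsq z), deriv G r ≠ 0 := (d1 hG0).continuousAt.eventually_ne h1.ne'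
  have e1 : (fun y => Real.log (cHess (fun y => G (nsq y)) y).det.re) =ᶠ[𝓝 z]
      fun y => L (nsq y) := by
    filter_upwards [contDiff_nsq.continuous.continuousAt.eventually (hG.and ev)] with y hy
    rw [cHess_radial (hy.1.of_le two_le), det_rad hy.2]
  rw [scal_congr hg]
  unfold scal
  rw [cHess_congr e1, cHess_radial (hG0.of_le two_le), cHess_radial (hLs.of_le two_le),
    Matrix.mul_neg, Matrix.trace_neg, Complex.neg_re, trace_rad_inv h1.ne' h3.ne']
  have key := radial_1d (n := n) (x := fun r => r * deriv G r) (L := L) hr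
    (contDiffAt_id.mul (d1 hG0)) hm (mul_pos hr h1) h2 hrel (by
      filter_upwards [hG, lt_mem_nhds hr] with r h4 h5
      rw [hd r h4, mul_div_cancel_left₀ _ h5.ne'])
  rw [hd _ hG0, mul_div_cancel_left₀ _ hr.ne'] at key
  rw [key, neg_neg]

end Vale.Agent.P264Z

end
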