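import Vale.Agent.P264Z.G.FS1
import Vale.Agent.P264Z.G.Rad

/-!
# P264: positivity of the radial forms on projective space
-/

open scoped Manifold ContDiff ComplexOrder Topology
open Set

noncomputable section

namespace Vale.Agent.P264Z

open Vale.Agent.P272.K Red

variable {n : ℕ} {b : ℝ} {F : ℝ → ℝ}

namespace FS

/-- the Fubini-Study matrix -/
lemma fs_eq (b : ℝ) (e : Chart n (CP n)) (z : Cm n) :
    fs b e z = rad (b / (1 + nsq z)) (-b / (1 + nsq z) ^ 2) z := by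
  have hd : ∀ r : ℝ, -1 < r → HasDerivAt (fun r => b * Real.log (1 + r)) (b / (1 + r)) r := by
    intro r hr
    have h : 1 + r ≠ 0 := by linarith
    exact ((((hasDerivAt_id' r).const_add 1).log h).const_mul b).congr_deriv (by ring)
  have hr : -1 < nsq z := by linarith [nsq_nonneg z]
  have h : 1 + nsq z ≠ 0 := by linarith
  have h1 : ContDiffAt ℝ 2 (fun r => b * Real.log (1 + r)) (nsq z) :=
    contDiffAt_const.mul ((contDiffAt_const.add contDiffAt_id).log h)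
  have h2 : deriv (fun r => b * Real.log (1 + r)) =ᶠ[𝓝 (nsq z)] fun r => b / (1 + r) := by
    filter_upwards [lt_mem_nhds hr] with r hr using (hd r hr).deriv
  have h3 : HasDerivAt (fun r : ℝ => b / (1 + r)) (-b / (1 + nsq z) ^ 2) (nsq z) :=
    ((hasDerivAt_const (nsq z) b).fun_div ((hasDerivAt_id' (nsq z)).const_add 1) h).congr_deriv
      (by ring)
  unfold fs
  rw [cHess_radial (f := fun r => b * Real.log (1 + r)) h1, h2.deriv_eq, h3.deriv, (hd _ hr).deriv]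

section vanish

variable {h : Cm n → ℝ} {w : Cm n} {j : Fin n}

lemma coe_sq_mul (h : Cm n → ℝ) (j : Fin n) : (fun y : Cm n => ((‖y j‖ ^ 2 * h y : ℝ) : ℂ)) =
    fun y => y j * (cj (y j) * (h y : ℂ)) := by
  funext y
  rw [← mul_assoc, Complex.mul_conj, Complex.normSq_eq_norm_sq]
  push_cast
  ring

lemma diff_co (j : Fin n) (y : Cm n) : DifferentiableAt ℝ (fun y : Cm n => y j) y :=
  differentiableAt_apply j y

lemma diff_cj (j : Fin n) (y : Cm n) : DifferentiableAt ℝ (fun y : Cm n => cj (y j)) y :=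
  Complex.conjCLE.differentiableAt.comp y (diff_co j y)

lemma dzb_sq_mul {y : Cm n} (hh : DifferentiableAt ℝ h y) (l : Fin n) :
    dzb l (fun y : Cm n => ((‖y j‖ ^ 2 * h y : ℝ) : ℂ)) y =
      y j * ((if j = l then 1 else 0) * (h y : ℂ) + cj (y j) * dzb l (fun y => (h y : ℂ)) y) := by
  have h1 : DifferentiableAt ℝ (fun y => (h y : ℂ)) y := Complex.ofRealCLM.differentiableAt.comp y hh
  rw [coe_sq_mul, dzb_mul (diff_co j y) ((diff_cj j y).fun_mul h1), dzb_mul (diff_cj j y) h1,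
    dzb_coord, dzb_cj (diff_co j y), dz_coord]
  split_ifs <;> simp

lemma cHess_sq_mul (hh : ContDiffAt ℝ 2 h w) (hw : w j = 0) :
    cHess (fun y => ‖y j‖ ^ 2 * h y) w = (h w : ℂ) • Matrix.single j j 1 := by
  ext k l
  have h1 : dzb l (fun y : Cm n => ((‖y j‖ ^ 2 * h y : ℝ) : ℂ)) =ᶠ[𝓝 w] fun y =>
      y j * ((if j = l then 1 else 0) * (h y : ℂ) + cj (y j) * dzb l (fun y => (h y : ℂ)) y) := by
    filter_upwards [hh.eventually (by simp)] with y hy
    exact dzb_sq_mul (hy.differentiableAt (by norm_num)) l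
  have h2 : DifferentiableAt ℝ (fun y => (h y : ℂ)) w :=
    (ofReal_contDiffAt hh).differentiableAt (by norm_num)
  have h3 : DifferentiableAt ℝ (fun y => (if j = l then 1 else 0) * (h y : ℂ) +
      cj (y j) * dzb l (fun y => (h y : ℂ)) y) w :=
    (h2.const_mul _).add ((diff_cj j w).mul (differentiableAt_dzb (ofReal_contDiffAt hh)))
  rw [cHess_apply, dz_congr h1, dz_mul (diff_co j w) h3, dz_coord, hw]
  by_cases hk : j = k <;> by_cases hl : j = l <;> simp [hk, hl, Matrix.single_apply]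

end vanish

/-- At the points with `Z₀ = 0` the form `wF b F` is `b FS - F'(1) E/(1+|w|²)`. -/
lemma wF_inf (b : ℝ) (hF : ContDiff ℝ ∞ F) {i : Fin (n + 1)} {j : Fin n} (hj : i.succAbove j = 0)
    {w : Cm n} (hw : w j = 0) :
    wF b F (CP.chart i) w = rad (b / (1 + nsq w)) (-b / (1 + nsq w) ^ 2) w -
      ((deriv F 1 / (1 + nsq w) : ℝ) : ℂ) • Matrix.single j j 1 := by
  have h0 : ∀ y : Cm n, CP.ins i y 0 = y j := fun y => by rw [← hj, CP.ins_succAbove]
  have hh : ContDiff ℝ 2 fun y : Cm n => (1 + nsq y)⁻¹ :=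
    (contDiff_const.add FS.contDiff_nsq).inv fun z => (one_add_pos z).ne'
  have hu : ContDiff ℝ 2 fun y : Cm n => ‖y j‖ ^ 2 * (1 + nsq y)⁻¹ :=
    ((contDiff_apply ℝ ℂ j).norm_sq ℝ).mul hh
  have h1 : (fun y : Cm n => F (Yc (CP.pt i y))) =
      fun y => (fun s => F (1 - s)) (‖y j‖ ^ 2 * (1 + nsq y)⁻¹) := by
    funext y
    rw [Yc_pt, h0, div_eq_mul_inv]
  have hf : ContDiff ℝ 2 fun s : ℝ => F (1 - s) :=
    (hF.of_le INT.two_le_inf).comp (contDiff_const.sub contDiff_id)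
  have h2 : deriv (fun s : ℝ => F (1 - s)) (‖w j‖ ^ 2 * (1 + nsq w)⁻¹) = -deriv F 1 := by
    rw [deriv_comp_const_sub, hw]
    simp
  unfold wF addDd
  simp only [CP.chart_symm]
  rw [fs_eq, h1, cHess_real_comp (f := fun s => F (1 - s))
    (Y := fun y : Cm n => ‖y j‖ ^ 2 * (1 + nsq y)⁻¹) hf.contDiffAt hu.contDiffAt, h2,
    cHess_sq_mul hh.contDiffAt hw]
  have h3 : ∀ l, dzb l (fun y : Cm n => ((‖y j‖ ^ 2 * (1 + nsq y)⁻¹ : ℝ) : ℂ)) w = 0 := fun l => by
    rw [dzb_sq_mul (hh.differentiable (by norm_num) w), hw, zero_mul]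
  simp only [h3, mul_zero]
  rw [sub_eq_add_neg, smul_smul, ← neg_smul]
  congr 1
  rw [show (Matrix.of fun _ _ : Fin n => (0 : ℂ)) = 0 from rfl, smul_zero, add_zero]
  congr 1
  push_cast
  ring

lemma quad_sub_single (M : Matrix (Fin n) (Fin n) ℂ) (c : ℝ) (j : Fin n) (ξ : Cm n) :
    (quad (M - (c : ℂ) • Matrix.single j j 1) ξ).re = (quad M ξ).re - c * ‖ξ j‖ ^ 2 := by
  have : quad (M - (c : ℂ) • Matrix.single j j 1) ξ = quad M ξ - ((c * ‖ξ j‖ ^ 2 : ℝ) : ℂ) := by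
    simp only [quad, Matrix.sub_apply, sub_mul, Finset.sum_sub_distrib, Matrix.smul_apply,
      Matrix.single_apply, smul_eq_mul]
    congr 1
    rw [Finset.sum_eq_single j (fun k _ hk => by simp [hk.symm]) (by simp),
      Finset.sum_eq_single j (fun k _ hk => by simp [hk.symm]) (by simp), Complex.mul_conj,
      Complex.normSq_eq_norm_sq]
    simp
  rw [this, Complex.sub_re, Complex.ofReal_re]

lemma cs_vanish {w : Cm n} {j : Fin n} (hw : w j = 0) (ξ : Cm n) :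
    ‖∑ i, cj (w i) * ξ i‖ ^ 2 ≤ nsq w * (nsq ξ - ‖ξ j‖ ^ 2) := by
  have h1 : ∑ i, cj (w i) * ξ i = ∑ i, cj (w i) * Function.update ξ j 0 i :=
    Finset.sum_congr rfl fun i _ => by
      by_cases h : i = j
      · subst h; simp [hw]
      · rw [Function.update_of_ne h]
  have h2 : nsq (Function.update ξ j 0) = nsq ξ - ‖ξ j‖ ^ 2 := by
    unfold nsq
    rw [← Finset.add_sum_erase _ _ (Finset.mem_univ j),
      ← Finset.add_sum_erase _ (fun i => ‖ξ i‖ ^ 2) (Finset.mem_univ j),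
      Finset.sum_congr rfl fun i hi => by rw [Function.update_of_ne (Finset.ne_of_mem_erase hi)]]
    simp
  rw [h1, ← h2]
  exact cs_nsq _

lemma deriv_mom_one (b : ℝ) (hF : ContDiff ℝ ∞ F) : deriv (mom b F) 1 = b - deriv F 1 := by
  have h1 := ((contDiff_infty_iff_deriv.1 hF).2.differentiable (by simp) 1).hasDerivAt
  have h2 := ((hasDerivAt_id' (1 : ℝ)).const_mul b).fun_add
    (((hasDerivAt_id' (1 : ℝ)).fun_mul ((hasDerivAt_id' (1 : ℝ)).const_sub 1)).fun_mul h1)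
  have h3 : deriv (mom b F) 1 = _ := h2.deriv
  rw [h3]
  ring

lemma posDef_inf (hb : 0 < b) (hF : ContDiff ℝ ∞ F) (h1 : 0 < deriv (mom b F) 1)
    {i : Fin (n + 1)} {j : Fin n} (hj : i.succAbove j = 0) {w : Cm n} (hw : w j = 0) :
    (wF b F (CP.chart i) w).PosDef := by
  have hH : (wF b F (CP.chart i) w).IsHermitian := by
    rw [wF_chart b hF]
    exact cHess_isHermitian ((contDiff_pot b).contDiffAt.add
      ((hF.of_le INT.two_le_inf).comp (contDiff_Yc_pt i)).contDiffAt)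
  refine posDef_of_quad hH fun ξ hξ => ?_
  rw [wF_inf b hF hj hw, quad_sub_single, quad_rad]
  rw [deriv_mom_one b hF] at h1
  have h2 := cs_vanish hw ξ
  have h3 := nsq_pos hξ
  have h4 : ‖ξ j‖ ^ 2 ≤ nsq ξ :=
    Finset.single_le_sum (f := fun i => ‖ξ i‖ ^ 2) (fun _ _ => sq_nonneg _) (Finset.mem_univ j)
  have h5 := one_add_pos w
  have h6 := nsq_nonneg w
  set P := ‖∑ i, cj (w i) * ξ i‖ ^ 2
  set B := ‖ξ j‖ ^ 2 with hB
  have hB0 : 0 ≤ B := sq_nonneg _
  have h7 : b / (1 + nsq w) * nsq ξ + -b / (1 + nsq w) ^ 2 * P - deriv F 1 / (1 + nsq w) * B =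
      (b * (nsq ξ - B) + b * (nsq w * (nsq ξ - B) - P) + (b - deriv F 1) * (1 + nsq w) * B) /
        (1 + nsq w) ^ 2 := by
    field_simp
    ring
  rw [h7]
  refine div_pos ?_ (by positivity)
  have h8 : 0 ≤ b * (nsq w * (nsq ξ - B) - P) := mul_nonneg hb.le (sub_nonneg.2 h2)
  rcases hB0.eq_or_lt with h | h
  · rw [← h] at h8 ⊢
    nlinarith [mul_pos hb h3]
  · have h9 := mul_pos (mul_pos h1 h5) h
    have h10 := mul_nonneg hb.le (sub_nonneg.2 h4)
    linarith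

lemma wF_rad (b : ℝ) (hF : ContDiff ℝ ∞ F) (z : Cm n) :
    wF b F (CP.chart 0) z = rad (deriv (Gpot b F) (nsq z)) (deriv (deriv (Gpot b F)) (nsq z)) z := by
  rw [wF_chart0 b hF]
  exact cHess_radial ((contDiffAt_Gpot b hF (by linarith [nsq_nonneg z])).of_le INT.two_le_inf)

lemma mom_pos (hF : ContDiff ℝ ∞ F) (hpos : ∀ y ∈ Icc (0 : ℝ) 1, 0 < deriv (mom b F) y) {y : ℝ}
    (h0 : 0 < y) (h1 : y ≤ 1) : 0 < mom b F y := by
  have h := strictMonoOn_of_deriv_pos (convex_Icc (0 : ℝ) 1)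
    (contDiff_mom b hF).continuous.continuousOn fun x hx => hpos x (interior_subset hx)
  have h2 := h ⟨le_rfl, zero_le_one⟩ ⟨h0.le, h1⟩ h0
  rwa [show mom b F 0 = 0 by simp [mom]] at h2

lemma frac_mem {r : ℝ} (hr : 0 ≤ r) : r / (1 + r) ∈ Icc (0 : ℝ) 1 :=
  ⟨by positivity, div_le_one_of_le₀ (by linarith) (by linarith)⟩

lemma deriv_Gpot_pos (hF : ContDiff ℝ ∞ F) (hpos : ∀ y ∈ Icc (0 : ℝ) 1, 0 < deriv (mom b F) y)
    {r : ℝ} (hr : 0 ≤ r) : 0 < deriv (Gpot b F) r := by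
  rcases hr.eq_or_lt with h | h
  · have h1 := deriv_add_Gpot b hF (r := r) (by linarith)
    have h2 := hpos _ (frac_mem hr)
    rw [← h] at h1 h2 ⊢
    rw [mul_zero, add_zero] at h1
    rw [h1]
    positivity
  · have h1 := mom_pos hF hpos (y := r / (1 + r)) (by positivity) (frac_mem hr).2
    rw [← mul_deriv_Gpot b hF (by linarith)] at h1
    exact (pos_iff_pos_of_mul_pos h1).1 h

lemma posDef_zero (hF : ContDiff ℝ ∞ F) (hpos : ∀ y ∈ Icc (0 : ℝ) 1, 0 < deriv (mom b F) y)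
    (z : Cm n) : (wF b F (CP.chart 0) z).PosDef := by
  have h0 := nsq_nonneg z
  rw [wF_rad b hF]
  refine rad_posDef (deriv_Gpot_pos hF hpos h0) ?_
  rw [deriv_add_Gpot b hF (by linarith)]
  exact div_pos (hpos _ (frac_mem h0)) (by positivity)

end FS

open FS

theorem isKahler_wF [NeZero n] (hb : 0 < b) (hF : ContDiff ℝ ∞ F)
    (hpos : ∀ y ∈ Icc (0 : ℝ) 1, 0 < deriv (mom b F) y) : IsKahler (wF (n := n) b F) := by
  have hc := isClosedForm_wF (n := n) b hF
  refine ⟨⟨hc.smooth, fun e x h => ?_, hc.form⟩, fun e x h i j k => hc.closed e x h k i j⟩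
  by_cases h0 : x ∈ (CP.chart 0).source
  · have h' : At (CP.chart 0) x := ⟨mem_range_self 0, h0⟩
    rw [hc.form e _ x h h']
    exact posDef_form (posDef_zero hF hpos _) (jacM_isUnit h h')
  · obtain ⟨i, rfl⟩ := h.1
    have hi : (0 : Fin (n + 1)) ≠ i := by
      rintro rfl
      exact h0 h.2
    obtain ⟨j, hj⟩ := Fin.exists_succAbove_eq hi
    refine posDef_inf hb hF (hpos 1 ⟨zero_le_one, le_rfl⟩) hj ?_
    have h1 : (CP.rep x).1 0 = 0 := not_not.1 h0
    show CP.aff i (CP.rep x).1 j = 0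
    rw [CP.aff, hj, h1, zero_div]

theorem pos_of_posDef [NeZero n] (hF : ContDiff ℝ ∞ F)
    (h : ∀ e x, At e x → (wF (n := n) b F e (e x)).PosDef) :
    ∀ y ∈ Icc (0 : ℝ) 1, 0 < deriv (mom b F) y := by
  intro y hy
  rcases hy.2.eq_or_lt with h1 | h1
  · have h2 := h _ _ (CP.at_pt (Fin.succ 0) (0 : Cm n))
    have h0 : (Pi.single 0 1 : Cm n) ≠ 0 := fun h => by simpa using congrFun h 0
    have h3 := quad_pos h2 h0
    rw [CP.chart_pt, wF_inf b hF (j := 0) (Fin.succ_succAbove_zero 0) rfl, quad_sub_single,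
      quad_rad] at h3
    have h4 : nsq (Pi.single 0 1 : Cm n) = 1 := by simpa [ln] using nsq_ln (n := n) 1
    rw [h1, deriv_mom_one b hF]
    simpa [nsq_zero, h4] using h3
  · have h2 : 0 < 1 - y := sub_pos.2 h1
    have h3 : 0 ≤ y / (1 - y) := div_nonneg hy.1 h2.le
    have h4 := h _ _ (CP.at_pt 0 (ln n (Real.sqrt (y / (1 - y)))))
    rw [CP.chart_pt, wF_rad b hF] at h4
    have h5 := pos_of_rad_posDef h4
    rw [nsq_ln, Real.sq_sqrt h3, deriv_add_Gpot b hF (by linarith),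
      show y / (1 - y) / (1 + y / (1 - y)) = y by field_simp; ring] at h5
    exact (div_pos_iff_of_pos_right (by positivity)).1 h5

end Vale.Agent.P264Z

end
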