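import Vale.Agent.P264Z.G.Leg2

/-!
# P264: the Legendre transform of a radial solution of the Calabi flow
-/

open scoped ContDiff
open Set Filter Topology

noncomputable section

namespace Vale.Agent.P264Z

open Leg

theorem Leg.contDiff_Mop (n : ℕ) {m : ℝ → ℝ} (hm : ContDiff ℝ ∞ m) : ContDiff ℝ ∞ (Mop n m) := by
  have h1 : ContDiff ℝ ∞ (deriv m) := (contDiff_infty_iff_deriv.1 hm).2
  have h2 : ContDiff ℝ ∞ (deriv (deriv m)) := (contDiff_infty_iff_deriv.1 h1).2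
  exact (((contDiff_id.pow 2).mul h2).add ((contDiff_const.mul contDiff_id).mul h1)).add
    (contDiff_const.mul hm)

/-- The profile as a smooth function of time and momentum. -/
theorem Leg.exists_profile {b : ℝ} {X : ℝ × ℝ → ℝ} (hX : ContDiff ℝ ∞ X)
    (hpos : ∀ t ∈ Icc (0 : ℝ) 1, ∀ y ∈ Icc (0 : ℝ) 1, 0 < dy X (t, y))
    (h0 : ∀ t, X (t, 0) = 0) (h1 : ∀ t, X (t, 1) = b) :
    ∃ M : ℝ × ℝ → ℝ, ContDiff ℝ ∞ M ∧
      (∀ t ∈ Icc (0 : ℝ) 1, ∀ y ∈ Icc (0 : ℝ) 1,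
        y * (1 - y) * dy X (t, y) = X (t, y) - X (t, y) ^ 2 * M (t, X (t, y))) ∧
      ∀ t ∈ Icc (0 : ℝ) 1, ∀ x ∈ Icc 0 b, ∃ y ∈ Icc (0 : ℝ) 1, X (t, y) = x := by
  obtain ⟨G, hG, hG1, hG2⟩ := exists_inv_box hX (a := 1) (b := b) one_pos hpos
    (fun t _ => h0 t) (fun t _ => h1 t)
  have h01 : (0 : ℝ) ∈ Icc (0 : ℝ) 1 := ⟨le_rfl, zero_le_one⟩
  set Φ : ℝ × ℝ → ℝ := fun p => p.2 * (1 - p.2) * dy X p with hΦdef
  have hΦ : ContDiff ℝ ∞ Φ :=
    (contDiff_snd.mul (contDiff_const.sub contDiff_snd)).mul (contDiff_dy hX)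
  set E : ℝ × ℝ → ℝ := fun p => p.2 - Φ (p.1, G p) with hEdef
  have hE : ContDiff ℝ ∞ E := contDiff_snd.sub (hΦ.comp (contDiff_fst.prodMk hG))
  obtain ⟨E1, hE1, h2⟩ := Vale.Agent.P220.H446.exists_div_par (F := fun p => E p - E (p.1, 0))
    (hE.sub (hE.comp (contDiff_fst.prodMk contDiff_const))) (fun w => sub_self _)
  obtain ⟨M, hM, h3⟩ := Vale.Agent.P220.H446.exists_div_par (F := fun p => E1 p - E1 (p.1, 0))
    (hE1.sub (hE1.comp (contDiff_fst.prodMk contDiff_const))) (fun w => sub_self _)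
  simp only [smul_eq_mul] at h2 h3
  have hE0 : ∀ t ∈ Icc (0 : ℝ) 1, E (t, 0) = 0 := by
    intro t ht
    have := hG1 t ht 0 h01
    rw [h0] at this
    simp [hEdef, hΦdef, this]
  have hkey : ∀ t ∈ Icc (0 : ℝ) 1, ∀ y ∈ Icc (0 : ℝ) 1,
      X (t, y) - y * (1 - y) * dy X (t, y) = X (t, y) * E1 (t, X (t, y)) := by
    intro t ht y hy
    rw [← h2, hE0 t ht, sub_zero]
    simp only [hEdef, hΦdef, hG1 t ht y hy]
  have hE10 : ∀ t ∈ Icc (0 : ℝ) 1, E1 (t, 0) = 0 := by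
    intro t ht
    have d1 := hasDerivAt_y hX t 0
    have d2 := hasDerivAt_y (contDiff_dy hX) t 0
    have d3 := d1.sub (((hasDerivAt_id' (0 : ℝ)).mul ((hasDerivAt_id' (0 : ℝ)).const_sub 1)).mul d2)
    have d4 := d1.mul (hasDerivAt_comp2 hE1 (hasDerivAt_const (0 : ℝ) t) d1)
    have h4 := deriv_eq_of_eqOn zero_lt_one h01 d3 d4 (fun y hy => hkey t ht y hy)
    simp only [Pi.mul_apply, h0] at h4
    have h5 : dy X (t, 0) * E1 (t, 0) = 0 := by linarith
    exact (mul_eq_zero.1 h5).resolve_left (hpos t ht 0 h01).ne'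
  refine ⟨M, hM, fun t ht y hy => ?_, fun t ht x hx => ⟨_, (hG2 t ht x hx).1, (hG2 t ht x hx).2⟩⟩
  have h4 := hkey t ht y hy
  have h5 := h3 t (X (t, y))
  rw [hE10 t ht, sub_zero] at h5
  rw [h5] at h4
  linarith

theorem legendre {n : ℕ} {b c : ℝ} (hb : 0 < b) {F : ℝ × ℝ → ℝ} (hF : ContDiff ℝ ∞ F)
    (hpos : ∀ t ∈ Icc (0 : ℝ) 1, ∀ y ∈ Icc (0 : ℝ) 1, 0 < deriv (mom b (fun y => F (t, y))) y)
    (heq : ∀ t ∈ Ioo (0 : ℝ) 1, ∀ m : ℝ → ℝ, ContDiff ℝ ∞ m → Prof b (fun y => F (t, y)) m →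
      ∀ y ∈ Ioo (0 : ℝ) 1,
        deriv (fun s => F (s, y)) t = Mop n m (mom b (fun y => F (t, y)) y) - c)
    {m0 : ℝ → ℝ} (hm0 : Continuous m0) (h0 : Prof b (fun y => F (0, y)) m0) :
    ∃ m : ℝ → ℝ → ℝ, Sol n b 1 m ∧ ∀ x ∈ Icc 0 b, m 0 x = m0 x := by
  set X : ℝ × ℝ → ℝ := fun p => b * p.2 + p.2 * (1 - p.2) * dy F p with hXdef
  have hX : ContDiff ℝ ∞ X := (contDiff_const.mul contDiff_snd).add
    ((contDiff_snd.mul (contDiff_const.sub contDiff_snd)).mul (contDiff_dy hF))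
  have hmom : ∀ t, mom b (fun y => F (t, y)) = fun y => X (t, y) := by
    intro t
    funext y
    rw [mom, (hasDerivAt_y hF t y).deriv]
  have hdX : ∀ t y, deriv (fun y => X (t, y)) y = dy X (t, y) := fun t y =>
    (hasDerivAt_y hX t y).deriv
  have hpos' : ∀ t ∈ Icc (0 : ℝ) 1, ∀ y ∈ Icc (0 : ℝ) 1, 0 < dy X (t, y) := by
    intro t ht y hy
    have := hpos t ht y hy
    rwa [hmom, hdX] at this
  have hX0 : ∀ t, X (t, 0) = 0 := fun t => by simp [hXdef]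
  have hX1 : ∀ t, X (t, 1) = b := fun t => by simp [hXdef]
  obtain ⟨M, hM, hK, hsurj⟩ := exists_profile hX hpos' hX0 hX1
  have h01 : (0 : ℝ) ∈ Icc (0 : ℝ) 1 := ⟨le_rfl, zero_le_one⟩
  have h11 : (1 : ℝ) ∈ Icc (0 : ℝ) 1 := ⟨zero_le_one, le_rfl⟩
  have hMt : ∀ t, ContDiff ℝ ∞ fun x => M (t, x) := fun t =>
    hM.comp (contDiff_const.prodMk contDiff_id)
  have hsurj' : ∀ t ∈ Icc (0 : ℝ) 1, ∀ x ∈ Ioo 0 b, ∃ y ∈ Ioo (0 : ℝ) 1, X (t, y) = x := by
    intro t ht x hx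
    obtain ⟨y, hy, hxy⟩ := hsurj t ht x (Ioo_subset_Icc_self hx)
    refine ⟨y, ⟨lt_of_le_of_ne hy.1 ?_, lt_of_le_of_ne hy.2 ?_⟩, hxy⟩
    · rintro rfl
      rw [hX0] at hxy
      exact hx.1.ne hxy
    · rintro rfl
      rw [hX1] at hxy
      exact hx.2.ne' hxy
  refine ⟨fun t x => M (t, x), ⟨hM, fun t ht => ?_, fun t ht x hx => ?_⟩, ?_⟩
  · have hval : M (t, b) = 1 / b := by
      have h1 := hK t ht 1 h11
      rw [hX1] at h1
      field_simp
      have h2 : b * (b * M (t, b) - 1) = 0 := by linarith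
      have h3 := (mul_eq_zero.1 h2).resolve_left hb.ne'
      linarith
    refine ⟨fun x hx0 hxb => ?_, hval, ?_⟩
    · rcases hx0.eq_or_lt with rfl | hx0
      · simp
      · obtain ⟨y, hy, rfl⟩ := hsurj' t ht x ⟨hx0, hxb⟩
        have h1 := hK t ht y (Ioo_subset_Icc_self hy)
        have h2 : 0 < y * (1 - y) * dy X (t, y) :=
          mul_pos (mul_pos hy.1 (by linarith [hy.2])) (hpos' t ht y (Ioo_subset_Icc_self hy))
        by_contra hc
        have h3 : X (t, y) * 1 ≤ X (t, y) * (X (t, y) * M (t, X (t, y))) :=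
          mul_le_mul_of_nonneg_left (not_lt.1 hc) hx0.le
        nlinarith
    · rw [(hasDerivAt_y hM t b).deriv]
      have d1 := hasDerivAt_y hX t 1
      have d2 := hasDerivAt_y (contDiff_dy hX) t 1
      have d3 := ((hasDerivAt_id' (1 : ℝ)).mul ((hasDerivAt_id' (1 : ℝ)).const_sub 1)).mul d2
      have d4 := d1.sub ((d1.pow 2).mul (hasDerivAt_comp2 hM (hasDerivAt_const (1 : ℝ) t) d1))
      have h4 := deriv_eq_of_eqOn zero_lt_one h11 d3 d4 (fun y hy => hK t ht y hy)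
      simp only [Pi.mul_apply, Pi.pow_apply, hX1, hval] at h4
      have hp := hpos' t ht 1 h11
      have h5 : b ^ 2 * dy X (t, 1) * dy M (t, b) = 0 := by
        have e : (2 : ℝ) * b * dy X (t, 1) * (1 / b) = 2 * dy X (t, 1) := by field_simp
        norm_num at h4
        rw [← one_div] at h4
        linarith
      exact (mul_eq_zero.1 h5).resolve_left (by positivity)
  · obtain ⟨y, hy, rfl⟩ := hsurj' t (Ioo_subset_Icc_self ht) x hx
    have ht' := Ioo_subset_Icc_self ht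
    set S : ℝ → ℝ := Mop n (fun x => M (t, x)) with hSdef
    have hS : ContDiff ℝ ∞ S := contDiff_Mop n (hMt t)
    have hS1 : ContDiff ℝ ∞ (deriv S) := (contDiff_infty_iff_deriv.1 hS).2
    have hSd : ∀ x, HasDerivAt S (deriv S x) x := fun x => (hS.differentiable (by simp) x).hasDerivAt
    have hSd2 : ∀ x, HasDerivAt (deriv S) (deriv (deriv S) x) x := fun x =>
      (hS1.differentiable (by simp) x).hasDerivAt
    have hprof : Prof b (fun y => F (t, y)) (fun x => M (t, x)) := by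
      intro z hz
      rw [hmom, hdX]
      exact hK t ht' z hz
    have hFt : ∀ z ∈ Ioo (0 : ℝ) 1, dt F (t, z) = S (X (t, z)) - c := by
      intro z hz
      have := heq t ht _ (hMt t) hprof z hz
      rwa [hmom, (hasDerivAt_t hF t z).deriv] at this
    have hFty : ∀ z ∈ Ioo (0 : ℝ) 1, dy (dt F) (t, z) = deriv S (X (t, z)) * dy X (t, z) := by
      intro z hz
      have d1 : HasDerivAt (fun z => S (X (t, z))) (deriv S (X (t, z)) * dy X (t, z)) z :=
        HasDerivAt.comp (h₂ := S) (h := fun z => X (t, z)) z (hSd _) (hasDerivAt_y hX t z)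
      exact deriv_eq_of_eqOn_Ioo hz (hasDerivAt_y (contDiff_dt hF) t z) (d1.sub_const c) hFt
    have hXt : ∀ z ∈ Ioo (0 : ℝ) 1, dt X (t, z) =
        deriv S (X (t, z)) * (X (t, z) - X (t, z) ^ 2 * M (t, X (t, z))) := by
      intro z hz
      have d1 : HasDerivAt (fun s => X (s, z)) (z * (1 - z) * dt (dy F) (t, z)) t :=
        ((hasDerivAt_t (contDiff_dy hF) t z).const_mul (z * (1 - z))).const_add (b * z)
      rw [(hasDerivAt_t hX t z).unique d1, dt_dy hF, hFty z hz,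
        ← hK t ht' z (Ioo_subset_Icc_self hz)]
      ring
    have dX := hasDerivAt_y hX t y
    have dM := hasDerivAt_comp2 hM (hasDerivAt_const y t) dX
    have dS : HasDerivAt (fun z => deriv S (X (t, z)))
        (deriv (deriv S) (X (t, y)) * dy X (t, y)) y :=
      HasDerivAt.comp (h₂ := deriv S) (h := fun z => X (t, z)) y (hSd2 _) dX
    have hXty := deriv_eq_of_eqOn_Ioo hy (hasDerivAt_y (contDiff_dt hX) t y)
      (dS.mul (dX.sub ((dX.pow 2).mul dM))) hXt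
    have dXt := hasDerivAt_t hX t y
    have dMt := hasDerivAt_comp2 hM (hasDerivAt_id' t) dXt
    have hΦt := deriv_eq_of_eqOn zero_lt_one ht'
      ((hasDerivAt_t (contDiff_dy hX) t y).const_mul (y * (1 - y)))
      (dXt.sub ((dXt.pow 2).mul dMt)) (fun s hs => hK s hs y (Ioo_subset_Icc_self hy))
    rw [dt_dy hX, hXty, hXt y hy] at hΦt
    have hKy := hK t ht' y (Ioo_subset_Icc_self hy)
    simp only [Pi.mul_apply, Pi.pow_apply, Pi.sub_apply] at hΦt
    rw [(hasDerivAt_t hM t (X (t, y))).deriv]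
    change _ = -(1 - X (t, y) * M (t, X (t, y))) ^ 2 * deriv (deriv S) (X (t, y))
    have hx0 : X (t, y) ^ 2 ≠ 0 := pow_ne_zero 2 hx.1.ne'
    refine mul_left_cancel₀ hx0 ?_
    norm_num at hΦt
    linear_combination hΦt - (deriv (deriv S) (X (t, y)) * (X (t, y) - X (t, y) ^ 2 * M (t, X (t, y))) +
      deriv S (X (t, y)) * (1 - 2 * X (t, y) * M (t, X (t, y)) -
        X (t, y) ^ 2 * dy M (t, X (t, y)))) * hKy
  · have h1 : EqOn (fun x => M (0, x)) m0 (Ioo 0 b) := by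
      intro x hx
      obtain ⟨y, hy, rfl⟩ := hsurj' 0 h01 x hx
      have h2 := h0 y (Ioo_subset_Icc_self hy)
      rw [hmom, hdX, hK 0 h01 y (Ioo_subset_Icc_self hy)] at h2
      have hx0 : X (0, y) ^ 2 ≠ 0 := pow_ne_zero 2 hx.1.ne'
      refine mul_left_cancel₀ hx0 ?_
      simp only at h2 ⊢
      linarith
    have h2 := h1.closure (hMt 0).continuous hm0
    rw [closure_Ioo hb.ne] at h2
    exact fun x hx => h2 hx

end Vale.Agent.P264Z
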