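import Vale.Agent.P264Z.G.GDefs

/-!
# P264: the unitary maps fixing the first coordinate act transitively on the level sets of `Y`
-/

open scoped Manifold ContDiff ComplexOrder Topology
open Set

noncomputable section

namespace Vale.Agent.P264Z

open Vale.Agent.P272.K

namespace Iso

/-- a complex reflection which exchanges two vectors of the same length -/
lemma exists_refl {E : Type*} [NormedAddCommGroup E] [InnerProductSpace ℂ E] {u v : E}
    (h : ‖u‖ = ‖v‖) : ∃ c : ℂ, (∀ x, ‖x - (c * inner ℂ (u - v) x) • (u - v)‖ ^ 2 = ‖x‖ ^ 2) ∧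
      u - (c * inner ℂ (u - v) u) • (u - v) = v := by
  set d := u - v with hd
  have hs : 2 * (inner ℂ d u).re = ‖d‖ ^ 2 := by
    have h1 : ‖u - d‖ ^ 2 = ‖u‖ ^ 2 - 2 * (inner ℂ u d).re + ‖d‖ ^ 2 := norm_sub_sq (𝕜 := ℂ) u d
    have h2 : u - d = v := by rw [hd]; abel
    have h3 : (inner ℂ u d).re = (inner ℂ d u).re := inner_re_symm (𝕜 := ℂ) u d
    rw [h2, ← h, h3] at h1
    linarith
  by_cases h0 : d = 0
  · refine ⟨0, fun x => by simp, ?_⟩
    have : u = v := sub_eq_zero.1 (hd ▸ h0)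
    simp [this]
  have hpos : 0 < ‖d‖ ^ 2 := by positivity
  set s : ℂ := inner ℂ d u with hsdef
  have hs0 : s ≠ 0 := by
    intro h1
    rw [h1] at hs
    simp only [Complex.zero_re, mul_zero] at hs
    linarith
  refine ⟨s⁻¹, fun x => ?_, ?_⟩
  · have h1 : ‖x - (s⁻¹ * inner ℂ d x) • d‖ ^ 2 = ‖x‖ ^ 2 -
        2 * (inner ℂ x ((s⁻¹ * inner ℂ d x) • d)).re + ‖(s⁻¹ * inner ℂ d x) • d‖ ^ 2 :=
      norm_sub_sq (𝕜 := ℂ) _ _
    have h2 : inner ℂ x d = (starRingEnd ℂ) (inner ℂ d x) := (inner_conj_symm x d).symm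
    have h3 : (inner ℂ x ((s⁻¹ * inner ℂ d x) • d)).re = (s⁻¹).re * ‖inner ℂ d x‖ ^ 2 := by
      rw [inner_smul_right, h2, mul_assoc, Complex.mul_conj, Complex.normSq_eq_norm_sq,
        Complex.re_mul_ofReal]
    have h4 : (s⁻¹).re = s.re / ‖s‖ ^ 2 := by
      rw [Complex.inv_re, Complex.normSq_eq_norm_sq]
    have h5 : ‖s‖ ≠ 0 := norm_ne_zero_iff.2 hs0
    rw [h1, h3, h4, norm_smul, norm_mul, norm_inv, mul_pow, ← hs]
    field_simp
    ring
  · rw [inv_mul_cancel₀ hs0, one_smul, hd]; abel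

variable {n : ℕ}

lemma nsq_eq {ι : Type*} [Fintype ι] (z : ι → ℂ) :
    nsq z = ‖(WithLp.toLp 2 z : EuclideanSpace ℂ ι)‖ ^ 2 := by
  rw [EuclideanSpace.norm_sq_eq]; rfl

lemma nsq_nonneg {ι : Type*} [Fintype ι] (z : ι → ℂ) : 0 ≤ nsq z :=
  Finset.sum_nonneg fun _ _ => by positivity

lemma nsq_pos {ι : Type*} [Fintype ι] {z : ι → ℂ} (hz : z ≠ 0) : 0 < nsq z := by
  obtain ⟨i, hi⟩ := Function.ne_iff.1 hz
  have hi' : z i ≠ 0 := hi
  exact Finset.sum_pos' (fun _ _ => by positivity) ⟨i, Finset.mem_univ _, by positivity⟩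

lemma nsq_zero {ι : Type*} [Fintype ι] : nsq (0 : ι → ℂ) = 0 := by simp [nsq]

lemma nsq_smul {ι : Type*} [Fintype ι] (a : ℂ) (z : ι → ℂ) : nsq (a • z) = ‖a‖ ^ 2 * nsq z := by
  simp only [nsq, Pi.smul_apply, smul_eq_mul, norm_mul, mul_pow, Finset.mul_sum]

lemma nsq_ins (i : Fin (n + 1)) (z : Cm n) : nsq (CP.ins i z) = 1 + nsq z := by
  unfold nsq
  rw [Fin.sum_univ_succAbove _ i]
  simp

lemma contDiff_nsq {ι : Type*} [Fintype ι] {m : WithTop ℕ∞} : ContDiff ℝ m (nsq : (ι → ℂ) → ℝ) :=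
  ContDiff.sum fun i _ => (contDiff_apply ℝ ℂ i).norm_sq ℝ

lemma Yc_mk (v : CP.V0 n) : Yc (CP.mk v) = 1 - ‖v.1 0‖ ^ 2 / nsq v.1 := by
  obtain ⟨a, ha, h⟩ := CP.exists_rep v
  have ha' : ‖a‖ ^ 2 ≠ 0 := pow_ne_zero 2 (norm_ne_zero_iff.2 ha)
  unfold Yc
  rw [h, nsq_smul, Pi.smul_apply, smul_eq_mul, norm_mul, mul_pow, mul_div_mul_left _ _ ha']

lemma contDiff_Yc_pt (k : Fin (n + 1)) : ContDiff ℝ ∞ fun y : Cm n => Yc (CP.pt k y) := by
  have h1 : (fun y : Cm n => Yc (CP.pt k y)) = fun y => 1 - ‖CP.ins k y 0‖ ^ 2 / (1 + nsq y) := by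
    funext y
    rw [CP.pt, Yc_mk, nsq_ins]
  rw [h1]
  refine contDiff_const.sub (ContDiff.div ?_ (contDiff_const.add contDiff_nsq) fun y => ?_)
  · exact (((CP.contDiff_ins k 0).restrict_scalars ℝ).of_le le_top).norm_sq ℝ
  · have := nsq_nonneg y
    positivity

/-- a unitary map which fixes the first coordinate and sends `u` to `v` -/
lemma exists_unitary {u v : Fin (n + 1) → ℂ} (h : nsq u = nsq v) (h0 : u 0 = v 0) :
    ∃ A : (Fin (n + 1) → ℂ) →L[ℂ] (Fin (n + 1) → ℂ), (∀ x, nsq (A x) = nsq x) ∧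
      (∀ x, A x 0 = x 0) ∧ A u = v := by
  have h1 : ‖(WithLp.toLp 2 u : EuclideanSpace ℂ (Fin (n + 1)))‖ = ‖(WithLp.toLp 2 v :
      EuclideanSpace ℂ (Fin (n + 1)))‖ := by
    rw [nsq_eq, nsq_eq] at h
    exact (pow_left_inj₀ (norm_nonneg _) (norm_nonneg _) two_ne_zero).1 h
  obtain ⟨c, hc, hc'⟩ := exists_refl h1
  let L : (Fin (n + 1) → ℂ) →L[ℂ] ℂ :=
    c • ∑ i, (starRingEnd ℂ) (u i - v i) • ContinuousLinearMap.proj i
  have hL : ∀ x, L x = c * inner ℂ ((WithLp.toLp 2 u : EuclideanSpace ℂ (Fin (n + 1))) -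
      WithLp.toLp 2 v) (WithLp.toLp 2 x) := by
    intro x
    simp only [L, PiLp.inner_apply, _root_.smul_apply, _root_.sum_apply,
      ContinuousLinearMap.proj_apply, smul_eq_mul, RCLike.inner_apply, PiLp.sub_apply]
    congr 1
    exact Finset.sum_congr rfl fun i _ => mul_comm _ _
  have hA : ∀ x, (WithLp.toLp 2 (x - L x • (u - v)) : EuclideanSpace ℂ (Fin (n + 1))) =
      WithLp.toLp 2 x - (c * inner ℂ ((WithLp.toLp 2 u : EuclideanSpace ℂ (Fin (n + 1))) -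
        WithLp.toLp 2 v) (WithLp.toLp 2 x)) • (WithLp.toLp 2 u - WithLp.toLp 2 v) := by
    intro x
    rw [← hL]; rfl
  refine ⟨ContinuousLinearMap.id ℂ _ - L.smulRight (u - v), fun x => ?_, fun x => ?_, ?_⟩
  · show nsq (x - L x • (u - v)) = _
    rw [nsq_eq, nsq_eq, hA, hc]
  · show (x - L x • (u - v)) 0 = _
    simp [h0]
  · show u - L u • (u - v) = v
    have := (hA u).trans hc'
    exact WithLp.toLp_injective 2 this

lemma exists_norm (p : CP n) : ∃ u : CP.V0 n, CP.mk u = p ∧ nsq u.1 = 1 := by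
  have h := nsq_pos (CP.rep p).2
  have h1 : 0 < Real.sqrt (nsq (CP.rep p).1) := Real.sqrt_pos.2 h
  have h2 : (((Real.sqrt (nsq (CP.rep p).1))⁻¹ : ℝ) : ℂ) ≠ 0 := by
    exact_mod_cast (inv_pos.2 h1).ne'
  refine ⟨CP.sc _ h2 (CP.rep p), by rw [CP.mk_sc, CP.mk_rep], ?_⟩
  show nsq (_ • _) = 1
  rw [nsq_smul, Complex.norm_real, Real.norm_eq_abs, sq_abs, inv_pow, Real.sq_sqrt h.le,
    inv_mul_cancel₀ h.ne']

lemma exists_pair {p q : CP n} (h : Yc p = Yc q) :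
    ∃ u v : CP.V0 n, CP.mk u = p ∧ CP.mk v = q ∧ nsq u.1 = nsq v.1 ∧ u.1 0 = v.1 0 := by
  obtain ⟨u, rfl, hu⟩ := exists_norm p
  obtain ⟨v, rfl, hv⟩ := exists_norm q
  rw [Yc_mk, Yc_mk, hu, hv, div_one, div_one] at h
  have h1 : ‖u.1 0‖ = ‖v.1 0‖ :=
    (pow_left_inj₀ (norm_nonneg _) (norm_nonneg _) two_ne_zero).1 (by linarith)
  by_cases h0 : v.1 0 = 0
  · refine ⟨u, v, rfl, rfl, hu.trans hv.symm, ?_⟩
    rw [h0, norm_zero, norm_eq_zero] at h1
    rw [h0, h1]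
  · have h2 : ‖u.1 0 / v.1 0‖ = 1 := by
      rw [norm_div, h1, div_self (norm_ne_zero_iff.2 h0)]
    have h3 : u.1 0 / v.1 0 ≠ 0 := by
      intro h4
      rw [h4, norm_zero] at h2
      exact zero_ne_one h2
    refine ⟨u, CP.sc _ h3 v, rfl, CP.mk_sc _ _ _, ?_, ?_⟩
    · show _ = nsq (_ • _)
      rw [nsq_smul, h2, hu, hv]; norm_num
    · show _ = u.1 0 / v.1 0 * v.1 0
      rw [div_mul_cancel₀ _ h0]

section act

variable {A : (Fin (n + 1) → ℂ) →L[ℂ] (Fin (n + 1) → ℂ)}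

lemma map_ne (hA : ∀ x, nsq (A x) = nsq x) (v : CP.V0 n) : A v.1 ≠ 0 := by
  intro h
  have := nsq_pos v.2
  rw [← hA, h, nsq_zero] at this
  exact lt_irrefl _ this

/-- the map of projective space induced by a unitary map -/
def act (hA : ∀ x, nsq (A x) = nsq x) (p : CP n) : CP n :=
  CP.mk ⟨A (CP.rep p).1, map_ne hA _⟩

lemma act_mk (hA : ∀ x, nsq (A x) = nsq x) (v : CP.V0 n) :
    act hA (CP.mk v) = CP.mk ⟨A v.1, map_ne hA v⟩ := by
  obtain ⟨a, -, h⟩ := CP.exists_rep v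
  refine (CP.mk_eq_iff _ _).2 ⟨a, ?_⟩
  show a • A v.1 = A (CP.rep (CP.mk v)).1
  rw [h, map_smul]

lemma continuous_act (hA : ∀ x, nsq (A x) = nsq x) : Continuous (act hA) := by
  rw [← CP.isOpenQuotientMap_mk.continuous_comp_iff]
  have : act hA ∘ CP.mk = fun v => CP.mk ⟨A v.1, map_ne hA v⟩ := funext (act_mk hA)
  rw [this]
  exact CP.continuous_mk.comp ((A.continuous.comp continuous_subtype_val).subtype_mk _)

lemma chart_act (hA : ∀ x, nsq (A x) = nsq x) (i k : Fin (n + 1)) :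
    (fun z => CP.chart k (act hA ((CP.chart i).symm z))) =
      fun z : Cm n => CP.aff k (A (CP.ins i z)) := by
  funext z
  rw [CP.chart_symm, CP.pt, act_mk, CP.chart_mk]

lemma ne_of_at (hA : ∀ x, nsq (A x) = nsq x) {i k : Fin (n + 1)} {x : CP n}
    (h : At (CP.chart i) x) (h' : At (CP.chart k) (act hA x)) :
    A (CP.ins i (CP.chart i x)) k ≠ 0 := by
  have h1 : x = CP.pt i (CP.chart i x) := ((CP.chart i).left_inv h.2).symm
  have h2 := h'.2
  rw [h1, CP.pt, act_mk, CP.mem_source_mk] at h2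
  exact h2

lemma holo_lin (i : Fin (n + 1)) : ContDiff ℂ ω fun z : Cm n => A (CP.ins i z) :=
  A.contDiff.comp (CP.contDiff_ins' i)

lemma holo_aff {i k : Fin (n + 1)} {z : Cm n} (hk : A (CP.ins i z) k ≠ 0) :
    ContDiffAt ℂ ω (fun z : Cm n => CP.aff k (A (CP.ins i z))) z :=
  ContDiffAt.comp (g := CP.aff k) (f := fun z : Cm n => A (CP.ins i z)) z
    (CP.contDiffAt_aff k hk) (holo_lin i).contDiffAt

lemma Yc_act (hA : ∀ x, nsq (A x) = nsq x) (h0 : ∀ x, A x 0 = x 0) (p : CP n) :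
    Yc (act hA p) = Yc p := by
  unfold act
  rw [Yc_mk]
  show 1 - ‖A (CP.rep p).1 0‖ ^ 2 / nsq (A (CP.rep p).1) = _
  rw [hA, h0]; rfl

theorem isIso_act {b : ℝ} {F : ℝ → ℝ} (hF : ContDiff ℝ ∞ F) (hA : ∀ x, nsq (A x) = nsq x)
    (h0 : ∀ x, A x 0 = x 0) : IsIso (wF (n := n) b F) (act hA) where
  cont := continuous_act hA
  holo := by
    rintro e e' x ⟨⟨i, rfl⟩, hx⟩ ⟨⟨k, rfl⟩, hx'⟩
    have hk := ne_of_at hA ⟨mem_range_self i, hx⟩ ⟨mem_range_self k, hx'⟩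
    rw [chart_act]
    exact holo_aff hk
  pres := by
    rintro e e' x ⟨⟨i, rfl⟩, hx⟩ ⟨⟨k, rfl⟩, hx'⟩
    have hk := ne_of_at hA ⟨mem_range_self i, hx⟩ ⟨mem_range_self k, hx'⟩
    have hxz : CP.chart k (act hA x) = CP.aff k (A (CP.ins i (CP.chart i x))) := by
      rw [← congrFun (chart_act hA i k) (CP.chart i x), (CP.chart i).left_inv hx]
    rw [chart_act, hxz]
    generalize CP.chart i x = z at hk ⊢
    have hτ : ContDiffAt ℂ ω (fun z : Cm n => CP.aff k (A (CP.ins i z))) z := holo_aff hk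
    have hG : ContDiffAt ℂ ω (fun z : Cm n => A (CP.ins i z) k) z :=
      (contDiff_pi.1 (holo_lin i) k).contDiffAt
    have two_le : (2 : WithTop ℕ∞) ≤ ∞ := by norm_cast
    have hP : ContDiff ℝ 2 fun y : Cm n => b * Real.log (1 + nsq y) :=
      contDiff_const.mul ((contDiff_const.add contDiff_nsq).log fun y => by
        have := nsq_nonneg y
        positivity)
    have hQ : ContDiff ℝ 2 fun y : Cm n => F (Yc (CP.pt k y)) :=
      (hF.comp (contDiff_Yc_pt k)).of_le two_le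
    have hτ' : ContDiffAt ℝ 2 (fun z : Cm n => CP.aff k (A (CP.ins i z))) z :=
      (hτ.restrict_scalars ℝ).of_le le_top
    have hl : ContDiffAt ℝ 2 (fun y : Cm n => Real.log (‖A (CP.ins i y) k‖ ^ 2)) z :=
      (((hG.restrict_scalars ℝ).of_le le_top).norm_sq ℝ).log
        (pow_ne_zero 2 (norm_ne_zero_iff.2 hk))
    have e1 : (fun y : Cm n => b * Real.log (1 + nsq y)) =ᶠ[𝓝 z] fun y =>
        b * Real.log (1 + nsq (CP.aff k (A (CP.ins i y)))) +
          b * Real.log (‖A (CP.ins i y) k‖ ^ 2) := by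
      filter_upwards [hG.continuousAt.eventually_ne hk] with y hy
      have h1 : 1 + nsq y = (1 + nsq (CP.aff k (A (CP.ins i y)))) * ‖A (CP.ins i y) k‖ ^ 2 := by
        rw [← nsq_ins i, ← nsq_ins k, mul_comm, ← nsq_smul, CP.smul_ins_aff k hy, hA]
      have h2 := nsq_nonneg (CP.aff k (A (CP.ins i y)))
      rw [h1, Real.log_mul (by positivity) (pow_ne_zero 2 (norm_ne_zero_iff.2 hy)), mul_add]
    have e2 : (fun y : Cm n => F (Yc (CP.pt i y))) =ᶠ[𝓝 z] fun y =>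
        F (Yc (CP.pt k (CP.aff k (A (CP.ins i y))))) := by
      filter_upwards [hG.continuousAt.eventually_ne hk] with y hy
      have h1 : CP.pt k (CP.aff k (A (CP.ins i y))) = act hA (CP.pt i y) := by
        rw [CP.pt, CP.pt, act_mk]
        exact ((CP.mk_eq_iff _ _).2 ⟨_, CP.smul_ins_aff k hy⟩).symm
      rw [h1, Yc_act hA h0]
    have c1 := cHess_comp (f := fun y : Cm n => b * Real.log (1 + nsq y)) hP.contDiffAt hτ
    have c2 := cHess_comp (f := fun y : Cm n => F (Yc (CP.pt k y))) hQ.contDiffAt hτ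
    show cHess (fun y => b * Real.log (1 + nsq y)) z + cHess (fun y => F (Yc (CP.pt i y))) z =
      _ * (cHess (fun y => b * Real.log (1 + nsq y)) _ +
        cHess (fun y => F (Yc (CP.pt k y))) _) * _
    rw [cHess_congr e1, cHess_congr e2,
      cHess_add (f := fun y => b * Real.log (1 + nsq (CP.aff k (A (CP.ins i y)))))
        (hP.contDiffAt.comp z hτ') (contDiffAt_const.mul hl),
      cHess_const_mul b hl, cHess_log_norm_sq hG hk, smul_zero, add_zero, c1, c2,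
      Matrix.mul_add, Matrix.add_mul]

end act

end Iso

variable {n : ℕ} [NeZero n] {b : ℝ} {F m : ℝ → ℝ}

omit [NeZero n] in
theorem exists_iso' (hF : ContDiff ℝ ∞ F) {p q : CP n} (h : Yc p = Yc q) :
    ∃ U, IsIso (wF (n := n) b F) U ∧ U p = q := by
  obtain ⟨u, v, rfl, rfl, h1, h2⟩ := Iso.exists_pair h
  obtain ⟨A, hA, h0, huv⟩ := Iso.exists_unitary h1 h2
  refine ⟨Iso.act hA, Iso.isIso_act hF hA h0, ?_⟩
  rw [Iso.act_mk]
  congr 1
  exact Subtype.ext huv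

set_option linter.unusedSectionVars false in
theorem exists_iso (hF : ContDiff ℝ ∞ F) {p q : CP n} (h : Yc p = Yc q) :
    ∃ U, IsIso (wF (n := n) b F) U ∧ U p = q := exists_iso' hF h

end Vale.Agent.P264Z

end
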