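import Vale.Agent.P264Z.G.Rad
import Vale.Agent.P264Z.G.Iso

/-!
# Scalar curvature of radial metrics on projective space
-/

open scoped Manifold ContDiff ComplexOrder Topology
open Set Filter

noncomputable section

namespace Vale.Agent.P264Z

open Vale.Agent.P272.K

variable {n : ℕ} {b r : ℝ} {F m : ℝ → ℝ}

/-- the potential of `wF b F` in the chart `0` as a function of `r = |z|²` -/
def pot (b : ℝ) (F : ℝ → ℝ) (r : ℝ) : ℝ := b * Real.log (1 + r) + F (r / (1 + r))

namespace Sc

lemma Yc_pt0 (z : Cm n) : Yc (CP.pt 0 z) = nsq z / (1 + nsq z) := by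
  have := nsq_nonneg z
  rw [CP.pt, Iso.Yc_mk, Iso.nsq_ins]
  simp only [CP.ins_same]
  field_simp
  simp

lemma log_smooth (hr : -1 < r) : ContDiffAt ℝ ∞ (fun r => b * Real.log (1 + r)) r :=
  contDiffAt_const.mul ((contDiffAt_const.add contDiffAt_id).log (by simp only [id]; linarith))

lemma pot_smooth (hF : ContDiff ℝ ∞ F) (hr : -1 < r) : ContDiffAt ℝ ∞ (pot b F) r :=
  (log_smooth hr).add (hF.contDiffAt.comp r
    (contDiffAt_id.div (contDiffAt_const.add contDiffAt_id) (by linarith)))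

lemma contDiff_fs : ContDiff ℝ ∞ fun y : Cm n => b * Real.log (1 + nsq y) :=
  contDiff_iff_contDiffAt.2 fun y => (log_smooth (b := b) (by linarith [nsq_nonneg y])).comp y
    contDiff_nsq.contDiffAt

lemma wF_zero (hF : ContDiff ℝ ∞ F) (z : Cm n) :
    wF b F (CP.chart 0) z = cHess (fun y => pot b F (nsq y)) z := by
  unfold wF addDd fs
  simp only [CP.chart_symm]
  rw [← cHess_add (g := fun y => F (Yc (CP.pt 0 y))) (contDiff_fs.contDiffAt.of_le two_le)
    ((hF.comp (Iso.contDiff_Yc_pt 0)).contDiffAt.of_le two_le)]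
  simp only [pot, Yc_pt0]

lemma hasDerivAt_y (hr : -1 < r) : HasDerivAt (fun r : ℝ => r / (1 + r)) (1 / (1 + r) ^ 2) r := by
  have h : 1 + r ≠ 0 := by linarith
  exact ((hasDerivAt_id' r).fun_div ((hasDerivAt_id' r).const_add 1) h).congr_deriv (by ring)

lemma deriv_pot (hF : ContDiff ℝ ∞ F) (hr : -1 < r) :
    deriv (pot b F) r = b / (1 + r) + deriv F (r / (1 + r)) / (1 + r) ^ 2 := by
  have h : 1 + r ≠ 0 := by linarith
  have := ((((hasDerivAt_id' r).const_add 1).log h).const_mul b).add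
    ((hF.differentiable (by simp) _).hasDerivAt.comp r (hasDerivAt_y hr))
  rw [(show HasDerivAt (pot b F) _ r from this).deriv]
  ring

lemma mul_deriv_pot (hF : ContDiff ℝ ∞ F) (hr : -1 < r) :
    r * deriv (pot b F) r = mom b F (r / (1 + r)) := by
  have h : 1 + r ≠ 0 := by linarith
  rw [deriv_pot hF hr, mom]
  field_simp
  ring

lemma mom_smooth (hF : ContDiff ℝ ∞ F) : ContDiff ℝ ∞ (mom b F) :=
  (contDiff_const.mul contDiff_id).add ((contDiff_id.mul (contDiff_const.sub contDiff_id)).mul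
    (contDiff_infty_iff_deriv.1 hF).2)

lemma deriv_mul_deriv_pot (hF : ContDiff ℝ ∞ F) (hr : -1 < r) :
    deriv (fun r => r * deriv (pot b F) r) r = deriv (mom b F) (r / (1 + r)) / (1 + r) ^ 2 := by
  have := ((mom_smooth (b := b) hF).differentiable (by simp) _).hasDerivAt.comp r (hasDerivAt_y hr)
  rw [(this.congr_of_eventuallyEq (by
    filter_upwards [lt_mem_nhds hr] with r hr using mul_deriv_pot hF hr)).deriv]
  ring

lemma y_mem (hr : 0 ≤ r) : r / (1 + r) ∈ Icc (0 : ℝ) 1 :=
  ⟨by positivity, div_le_one_of_le₀ (by linarith) (by linarith)⟩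

lemma mom_pos (hF : ContDiff ℝ ∞ F) (hpos : ∀ y ∈ Icc (0 : ℝ) 1, 0 < deriv (mom b F) y) {y : ℝ}
    (h0 : 0 < y) (h1 : y ≤ 1) : 0 < mom b F y := by
  have := strictMonoOn_of_deriv_pos (convex_Icc 0 1) (mom_smooth (b := b) hF).continuous.continuousOn
    (fun y hy => hpos y (interior_subset hy)) (left_mem_Icc.2 zero_le_one) ⟨h0.le, h1⟩ h0
  simpa [mom] using this

lemma fs_eq (e : Chart n (CP n)) (z : Cm n) :
    fs b e z = rad (b / (1 + nsq z)) (-b / (1 + nsq z) ^ 2) z := by
  have h1 : ∀ r : ℝ, -1 < r → deriv (fun r => b * Real.log (1 + r)) r = b / (1 + r) := fun r hr => by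
    rw [((((hasDerivAt_id' r).const_add 1).log (by linarith)).const_mul b).deriv]; ring
  have h0 : -1 < nsq z := by linarith [nsq_nonneg z]
  have h2 := (hasDerivAt_const (nsq z) b).fun_div ((hasDerivAt_id' (nsq z)).const_add 1)
    (by linarith)
  unfold fs
  rw [cHess_radial (f := fun r => b * Real.log (1 + r)) ((log_smooth h0).of_le two_le), h1 _ h0,
    (h2.congr_of_eventuallyEq (by filter_upwards [lt_mem_nhds h0] with r hr using h1 r hr)).deriv]
  congr 1
  ring

lemma fs_posDef (hb : 0 < b) (e : Chart n (CP n)) (z : Cm n) : (fs b e z).PosDef := by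
  have h := nsq_nonneg z
  rw [fs_eq]
  refine rad_posDef (by positivity) ?_
  rw [show b / (1 + nsq z) + -b / (1 + nsq z) ^ 2 * nsq z = b / (1 + nsq z) ^ 2 by field_simp; ring]
  positivity

end Sc

open Sc

theorem scal_wF (hF : ContDiff ℝ ∞ F) (hpos : ∀ y ∈ Icc (0 : ℝ) 1, 0 < deriv (mom b F) y)
    (hm : ContDiff ℝ ∞ m) (hP : Prof b F m) {z : Cm n} (hz : z ≠ 0) :
    scal (wF b F (CP.chart 0)) z = Mop n m (mom b F (Yc (CP.pt 0 z))) := by
  have hr := nsq_pos hz
  have h0 : -1 < nsq z := by linarith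
  rw [Yc_pt0, ← mul_deriv_pot hF h0]
  refine scal_radial hz ?_ hm ?_ ?_ ?_ (Eventually.of_forall (wF_zero hF))
  · filter_upwards [lt_mem_nhds h0] with r hr using pot_smooth hF hr
  · refine pos_of_mul_pos_left ?_ hr.le
    rw [mul_comm, mul_deriv_pot hF h0]
    exact mom_pos hF hpos (by positivity) (y_mem hr.le).2
  · rw [deriv_mul_deriv_pot hF h0]
    exact div_pos (hpos _ (y_mem hr.le)) (by positivity)
  · filter_upwards [lt_mem_nhds hr] with r hr
    have h1 : -1 < r := by linarith
    rw [deriv_mul_deriv_pot hF h1, mul_deriv_pot hF h1, ← hP _ (y_mem hr.le)]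
    field_simp
    ring

lemma scal_fs [NeZero n] (hb : 0 < b) (e : Chart n (CP n)) (z : Cm n) :
    scal (fs b e) z = n * (n + 1) / b := by
  have hm : mom b (fun _ => 0) = fun y => b * y := by funext y; simp [mom]
  have hd : ∀ y, deriv (mom b fun _ => 0) y = b := fun y => by
    rw [hm]; simp
  have h1 : ∀ z : Cm n, z ≠ 0 → scal (fs b e) z = n * (n + 1) / b := by
    intro z hz
    have := scal_wF (b := b) (F := fun _ => 0) (m := fun _ => 1 / b) contDiff_const
      (fun y _ => by rwa [hd]) contDiff_const (fun y _ => by rw [hd, hm]; field_simp) hz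
    rw [show wF b (fun _ => 0) (CP.chart 0) = fs b e from funext fun z => by
      simp [wF, addDd, fs, cHess_const]] at this
    rw [this]
    simp [Mop, div_eq_mul_inv]
  have hs : ∀ i j, ContDiff ℝ ∞ fun y : Cm n => fs b e y i j := fun i j =>
    contDiff_iff_contDiffAt.2 fun y => INT.smooth_cHess contDiff_fs.contDiffAt i j
  have hc : Continuous (scal (fs b e)) := continuous_iff_continuousAt.2 fun y => by
    have hp := fs_posDef hb e y
    have h2 : ContDiffAt ℝ ∞ (fun y => Real.log (fs b e y).det.re) y :=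
      (Complex.reCLM.contDiff.contDiffAt.comp y
        (contDiffAt_det fun i j => (hs i j).contDiffAt)).log (det_re_pos hp).ne'
    rw [← continuousWithinAt_univ]
    refine cw_trace_re ((cw_inv ?_ hp.det_pos.ne').mul (ContinuousWithinAt.neg ?_))
    · exact continuousWithinAt_pi.2 fun i => continuousWithinAt_pi.2 fun j =>
        (hs i j).continuous.continuousWithinAt
    · exact continuousWithinAt_pi.2 fun i => continuousWithinAt_pi.2 fun j =>
        (INT.smooth_cHess h2 i j).continuousAt.continuousWithinAt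
  exact congrFun (Continuous.ext_on (dense_compl_singleton (0 : Cm n)) hc continuous_const h1) z

theorem classHasCscK_wF [NeZero n] (hb : 0 < b) (hF : ContDiff ℝ ∞ F)
    (hw : IsKahler (wF (n := n) b F)) : ClassHasCscK (wF (n := n) b F) := by
  have hs : ∀ i, ContDiff ℝ ∞ fun z : Cm n => F (Yc (CP.pt i z)) := fun i =>
    hF.comp (Iso.contDiff_Yc_pt i)
  have hu : SmoothFn (n := n) fun p : CP n => -1 * F (Yc p) := by
    rintro _ x ⟨⟨i, rfl⟩, -⟩
    exact contDiffAt_const.mul (hs i).contDiffAt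
  have he : ∀ i, addDd (wF b F) (fun p : CP n => -1 * F (Yc p)) (CP.chart i) =
      fs b (CP.chart i) := fun i => funext fun z => by
    unfold wF addDd
    simp only [CP.chart_symm]
    rw [cHess_const_mul _ ((hs i).contDiffAt.of_le two_le)]
    simp
  refine ⟨fun p => -1 * F (Yc p), hu, isKahler_addDd hw hu ?_, n * (n + 1) / b, ?_⟩
  · rintro _ x ⟨⟨i, rfl⟩, -⟩
    rw [he]
    exact fs_posDef hb _ _
  · rintro _ x ⟨⟨i, rfl⟩, -⟩
    rw [he, scal_fs hb]

end Vale.Agent.P264Z

end
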