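import Vale.Agent.P264Z.G.Red
import Vale.Agent.P264Z.G.Leg3
import Vale.Agent.P264Z.G.Scal
import Vale.Agent.P264Z.G.FS2

/-!
# From the one-dimensional problem to the Calabi flow on projective space
-/

open scoped Manifold ContDiff ComplexOrder Topology
open Set Filter

noncomputable section

namespace Vale.Agent.P264Z

open Vale.Agent.P272.K

variable {n : ℕ} [NeZero n] {b : ℝ}

omit [NeZero n] in
lemma addDd_wF {F₀ f : ℝ → ℝ} (h₀ : ContDiff ℝ ∞ F₀) (hf : ContDiff ℝ ∞ f) {u : CP n → ℝ}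
    (hu : ∀ p, u p = f (Yc p)) {e : Chart n (CP n)} {x : CP n} (hx : At e x) :
    addDd (wF b F₀) u e (e x) = wF b (fun y => F₀ y + f y) e (e x) := by
  obtain rfl : u = fun p => f (Yc p) := funext hu
  unfold wF addDd
  rw [cHess_add ((smoothFn_Yc h₀ e x hx).of_le two_le) ((smoothFn_Yc hf e x hx).of_le two_le),
    add_assoc]

/-- A solution of the Calabi flow from a radial metric gives a solution of the one-dimensional
problem. -/
theorem sol_of_flow (hb : 0 < b) {F₀ m₀ : ℝ → ℝ} (h₀ : ContDiff ℝ ∞ F₀)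
    (hpos : ∀ y ∈ Icc (0 : ℝ) 1, 0 < deriv (mom b F₀) y) (hm : Continuous m₀) (hP : Prof b F₀ m₀)
    {s T : ℝ} (hT : 1 < T) {φ : ℝ → CP n → ℝ} (h : IsCalabiFlow (wF b F₀) s (Ico 0 T) φ) :
    ∃ m : ℝ → ℝ → ℝ, Sol n b 1 m ∧ ∀ x ∈ Icc 0 b, m 0 x = m₀ x := by
  have hw := isKahler_wF (n := n) hb h₀ hpos
  have hsub : Icc (0 : ℝ) 1 ⊆ Ico 0 T := Icc_subset_Ico_right hT
  obtain ⟨f, hf, hφ⟩ := exists_profile hT h.smooth fun t ht p q hpq => by
    obtain ⟨U, hU, rfl⟩ := exists_iso (b := b) h₀ hpq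
    exact ((h.mono hsub).invariant hU hw one_pos t ht p).symm
  have hft : ∀ t, ContDiff ℝ ∞ fun y => f (t, y) := fun t =>
    hf.comp (contDiff_const.prodMk contDiff_id)
  have hp : ∀ t ∈ Icc (0 : ℝ) 1, ∀ y ∈ Icc (0 : ℝ) 1,
      0 < deriv (mom b fun y => F₀ y + f (t, y)) y := fun t ht =>
    pos_of_posDef (n := n) (h₀.add (hft t)) fun e x hx => by
      rw [← addDd_wF h₀ (hft t) (hφ t ht) hx]
      exact h.pos t (hsub ht) e x hx
  refine legendre (c := s) (F := fun p => F₀ p.2 + f p) hb ((h₀.comp contDiff_snd).add hf) hp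
    (fun t ht m hms hPm y hy => ?_) hm ?_
  · have ht' : t ∈ Icc (0 : ℝ) 1 := Ioo_subset_Icc_self ht
    obtain ⟨z, hz, rfl⟩ := exists_Yc (n := n) hy
    have h1 := (h.eqn t (hsub ht') _ _ (CP.at_pt 0 z)).hasDerivAt
      (Ico_mem_nhds ht.1 (ht.2.trans hT))
    rw [CP.chart_pt, scal_congr (g' := wF b (fun y => F₀ y + f (t, y)) (CP.chart 0))
      (Eventually.of_forall fun y => by
        have := addDd_wF (b := b) h₀ (hft t) (hφ t ht') (CP.at_pt 0 y)
        rwa [CP.chart_pt] at this),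
      scal_wF (h₀.add (hft t)) (hp t ht') hms hPm hz] at h1
    refine ((h1.const_add (F₀ (Yc (CP.pt 0 z)))).congr_of_eventuallyEq ?_).deriv
    filter_upwards [Icc_mem_nhds ht.1 ht.2] with τ hτ
    rw [hφ τ hτ]
  · have h0 : ∀ y ∈ Ioo (0 : ℝ) 1, f (0, y) = 0 := fun y hy => by
      obtain ⟨z, -, rfl⟩ := exists_Yc (n := n) hy
      rw [← hφ 0 ⟨le_rfl, zero_le_one⟩, h.init]
    have sm : ∀ {G : ℝ → ℝ}, ContDiff ℝ ∞ G → ContDiff ℝ ∞ (mom b G) := fun hG =>
      (contDiff_const.mul contDiff_id).add ((contDiff_id.mul (contDiff_const.sub contDiff_id)).mul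
        (contDiff_infty_iff_deriv.1 hG).2)
    have s1 := sm (h₀.add (hft 0))
    have s2 := sm h₀
    have e1 : ∀ y ∈ Ioo (0 : ℝ) 1, mom b (fun y => F₀ y + f (0, y)) =ᶠ[𝓝 y] mom b F₀ := by
      intro y hy
      filter_upwards [Ioo_mem_nhds hy.1 hy.2] with y hy
      unfold mom
      rw [Filter.EventuallyEq.deriv_eq (f := F₀) (by
        filter_upwards [Ioo_mem_nhds hy.1 hy.2] with y hy
        rw [h0 y hy, add_zero])]
    have e2 : EqOn (mom b fun y => F₀ y + f (0, y)) (mom b F₀) (Icc 0 1) := by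
      rw [← closure_Ioo zero_ne_one]
      exact EqOn.closure (fun y hy => (e1 y hy).eq_of_nhds) s1.continuous s2.continuous
    have e3 : EqOn (deriv (mom b fun y => F₀ y + f (0, y))) (deriv (mom b F₀)) (Icc 0 1) := by
      rw [← closure_Ioo zero_ne_one]
      exact EqOn.closure (fun y hy => (e1 y hy).deriv_eq) (s1.continuous_deriv (by simp))
        (s2.continuous_deriv (by simp))
    intro y hy
    simp only
    rw [e2 hy, e3 hy]
    exact hP y hy

/-- The geometric form of the one-dimensional non-existence statement. -/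
theorem final_n (h : NoGlobal n) :
    ∃ w : Chart n (CP n) → Cm n → Matrix (Fin n) (Fin n) ℂ, IsKahler w ∧ ClassHasCscK w ∧
      (∃ s, IsAverageScal w s) ∧ (∀ s, ∀ T > 1, ¬∃ φ, IsCalabiFlow w s (Ico 0 T) φ) ∧
      ∀ s, ¬∃ φ, IsCalabiFlow w s (Ici 0) φ := by
  obtain ⟨b, m₀, hb, hm, ha, hno⟩ := h
  obtain ⟨F₀, h₀, hpos, hP⟩ := init_exists hb hm ha
  have hw := isKahler_wF (n := n) hb h₀ hpos
  have key : ∀ s, ∀ T > 1, ¬∃ φ, IsCalabiFlow (wF (n := n) b F₀) s (Ico 0 T) φ :=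
    fun s T hT ⟨φ, hφ⟩ => hno (sol_of_flow hb h₀ hpos hm.continuous hP hT hφ)
  exact ⟨wF b F₀, hw, classHasCscK_wF hb h₀ hw, exists_average hw.toIsHermitian, key,
    fun s ⟨φ, hφ⟩ => key s 2 one_lt_two ⟨φ, hφ.mono Ico_subset_Ici_self⟩⟩

/-- Sanity check of the definition: the Fubini-Study metric is a stationary solution. -/
theorem flow_fs (hb : 0 < b) :
    IsCalabiFlow (fs (n := n) b) (n * (n + 1) / b) (Ici 0) fun _ _ => 0 := by
  have h : ∀ e, addDd (fs (n := n) b) (fun _ => 0) e = fs b e := fun e => funext fun z => by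
    simp [addDd, cHess_const]
  exact ⟨fun _ _ _ _ _ => contDiffWithinAt_const, fun _ => rfl,
    fun _ _ e _ _ => by rw [h]; exact Sc.fs_posDef hb e _,
    fun _ _ e _ _ => by rw [h, scal_fs hb, sub_self]; exact hasDerivWithinAt_const _ _ _⟩

theorem final (h : NoGlobal 10) :
    ∃ (X : Type) (_ : TopologicalSpace X) (_ : T2Space X) (_ : CompactSpace X)
      (_ : ConnectedSpace X) (_ : ChartedSpace (Cm 10) X) (_ : IsManifold 𝓘(ℂ, Cm 10) ω X)
      (w : Chart 10 X → Cm 10 → Matrix (Fin 10) (Fin 10) ℂ), IsKahler w ∧ ClassHasCscK w ∧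
      (∃ s, IsAverageScal w s) ∧ (∀ s, ∀ T > 1, ¬∃ φ, IsCalabiFlow w s (Ico 0 T) φ) ∧
      ∀ s, ¬∃ φ, IsCalabiFlow w s (Ici 0) φ :=
  ⟨CP 10, inferInstance, inferInstance, inferInstance, inferInstance, inferInstance, inferInstance,
    final_n h⟩

end Vale.Agent.P264Z

end
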