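import Vale.Agent.P264Z.G.Par
import Vale.Agent.P264Z.G.Eig

/-!
# Scalar curvature as a function on the manifold; the integral inequality of the uniqueness proof
-/

open scoped Manifold ContDiff ComplexOrder Topology
open Set Filter MeasureTheory

noncomputable section

namespace Vale.Agent.P264Z

open Vale.Agent.P272.K
open Vale.Agent.P272.K.INT (IsDensity intX part Part IsClosedForm)
open Vale.Agent.P272.K.AMP (Ld atX)

variable {n : ℕ} {X : Type*} [TopologicalSpace X] [ChartedSpace (Cm n) X]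
  {w g g₁ g₂ : Chart n X → Cm n → Matrix (Fin n) (Fin n) ℂ} {u ψ : X → ℝ} {e : Chart n X} {x : X}

lemma det_re_pos {M : Matrix (Fin n) (Fin n) ℂ} (h : M.PosDef) : 0 < M.det.re :=
  (Complex.pos_iff.1 h.det_pos).1

lemma two_le : (2 : WithTop ℕ∞) ≤ ∞ := by norm_cast

/-- `log det g` -/
def logdet (g : Chart n X → Cm n → Matrix (Fin n) (Fin n) ℂ) (e : Chart n X) (z : Cm n) : ℝ :=
  Real.log (g e z).det.re

lemma logdet_smooth (hg : IsHermitian g) (hx : At e x) : ContDiffAt ℝ ∞ (logdet g e) (e x) :=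
  (Complex.reCLM.contDiff.contDiffAt.comp (e x) (contDiffAt_det (hg.smooth e x hx))).log
    (det_re_pos (hg.posDef e x hx)).ne'

lemma densMul {D f : Chart n X → Cm n → ℝ} (hD : IsDensity D)
    (hc : ∀ e x, At e x → ContinuousAt (f e) (e x))
    (hi : ∀ e e' x, At e x → At e' x → f e (e x) = f e' (e' x)) :
    IsDensity fun e z => f e z * D e z where
  cont e x h := (hc e x h).mul (hD.cont e x h)
  change e e' x h h' := by rw [hi e e' x h h', hD.change e e' x h h']; ring

variable [IsManifold 𝓘(ℂ, Cm n) ω X]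

lemma isCanonical_logdet (hg : IsHermitian g) : IsCanonicalMetric (logdet g) where
  smooth e x hx := logdet_smooth hg hx
  change e e' x h h' := by
    unfold logdet
    rw [det_form_re hg.isForm h h', Real.log_mul
      (pow_ne_zero 2 (norm_ne_zero_iff.2 (jacM_det_ne_zero h h')))
      (det_re_pos (hg.posDef e' x h')).ne', add_comm]

lemma scal_eq (g : Chart n X → Cm n → Matrix (Fin n) (Fin n) ℂ) (e : Chart n X) (z : Cm n) :
    scal (g e) z = -AMP.trE g (fun e z => cHess (logdet g e) z) e z := by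
  unfold scal AMP.trE
  rw [Matrix.mul_neg, Matrix.trace_neg, Complex.neg_re]
  rfl

lemma scal_smooth (hg : IsHermitian g) (hx : At e x) : ContDiffAt ℝ ∞ (scal (g e)) (e x) := by
  have : scal (g e) = fun z => -AMP.trE g (fun e z => cHess (logdet g e) z) e z :=
    funext (scal_eq g e)
  rw [this]
  exact (AMP.contDiffAt_trE hg (fun i j => INT.smooth_cHess (logdet_smooth hg hx) i j) hx).neg

lemma scal_change (hg : IsHermitian g) {e' : Chart n X} (h : At e x) (h' : At e' x) :
    scal (g e) (e x) = scal (g e') (e' x) := by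
  rw [scal_eq, scal_eq,
    AMP.trE_eq hg (INT.isClosedForm_canonical (isCanonical_logdet hg)).form h h']

lemma isDensity_scal (hg : IsHermitian g) : IsDensity fun e z => scal (g e) z * (g e z).det.re :=
  densMul (INT.isDensity_det hg.change hg.smooth)
    (fun _ _ h => (scal_smooth hg h).continuousAt) fun _ _ _ h h' => scal_change hg h h'

lemma isClosedForm_addDd (hw : IsClosedForm w) (hu : SmoothFn (n := n) u) :
    IsClosedForm (addDd w u) := hw.add (INT.isClosedForm_cHess hu)

lemma isKahler_of_closed (hw : IsClosedForm w) (hp : ∀ e x, At e x → (w e (e x)).PosDef) :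
    IsKahler w where
  smooth := hw.smooth
  posDef := hp
  change := hw.form
  closed e x h i j k := hw.closed e x h k i j

lemma isKahler_addDd (hw : IsKahler w) (hu : SmoothFn (n := n) u)
    (hp : ∀ e x, At e x → (addDd w u e (e x)).PosDef) : IsKahler (addDd w u) :=
  isKahler_of_closed (isClosedForm_addDd (INT.IsKahler.isClosedForm hw) hu) hp

variable [T2Space X] [CompactSpace X]

lemma exists_average [Nonempty X] (hg : IsHermitian g) : ∃ s, IsAverageScal g s :=
  ⟨_, _, _, (isDensity_scal hg).isIntegral, (INT.isDensity_det hg.change hg.smooth).isIntegral,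
    INT.intX_pos (INT.isDensity_det hg.change hg.smooth)
      fun e x h => det_re_pos (hg.posDef e x h), rfl⟩

variable (n X) in
/-- the compact pieces over which integrals are computed -/
def KK (i : Fin (part n X).N) : Set (Cm n) := (part n X).e i '' tsupport ((part n X).ρ i)

lemma isCompact_KK (i : Fin (part n X).N) : IsCompact (KK n X i) :=
  (isClosed_tsupport _).isCompact.image_of_continuousOn
    (((part n X).e i).continuousOn.mono ((part n X).supp i))

lemma KK_at {i : Fin (part n X).N} {z : Cm n} (hz : z ∈ KK n X i) :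
    ∃ x, At ((part n X).e i) x ∧ (part n X).e i x = z := by
  obtain ⟨x, hx, rfl⟩ := hz
  exact ⟨x, ⟨(part n X).mem i, (part n X).supp i hx⟩, rfl⟩

lemma KK_sub (i : Fin (part n X).N) : KK n X i ⊆ ((part n X).e i).target := by
  intro z hz
  obtain ⟨x, hx, rfl⟩ := KK_at hz
  exact hx.mem_target

lemma intX_eq_KK (D : Chart n X → Cm n → ℝ) : intX D = ∑ i, ∫ z in KK n X i,
    (part n X).ρ i (((part n X).e i).symm z) * D ((part n X).e i) z := by
  unfold intX
  refine Finset.sum_congr rfl fun i _ => ?_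
  refine setIntegral_eq_of_subset_of_forall_sdiff_eq_zero
    ((part n X).e i).open_target.measurableSet (KK_sub i) fun z hz => ?_
  have : (part n X).ρ i (((part n X).e i).symm z) = 0 := by
    by_contra h
    exact hz.2 ⟨_, subset_tsupport _ h, ((part n X).e i).right_inv hz.1⟩
  rw [this, zero_mul]

lemma integrableOn_KK {D : Chart n X → Cm n → ℝ} (hD : IsDensity D) (i : Fin (part n X).N) :
    IntegrableOn (fun z => (part n X).ρ i (((part n X).e i).symm z) * D ((part n X).e i) z)
      (KK n X i) := (INT.integrableOn_part (part n X) hD i).mono_set (KK_sub i)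

lemma intX_mono_KK {D D' : Chart n X → Cm n → ℝ} (hD : IsDensity D) (hD' : IsDensity D')
    (h : ∀ i, ∀ z ∈ KK n X i, D ((part n X).e i) z ≤ D' ((part n X).e i) z) :
    intX D ≤ intX D' := by
  rw [intX_eq_KK, intX_eq_KK]
  exact Finset.sum_le_sum fun i _ => setIntegral_mono_on (integrableOn_KK hD i)
    (integrableOn_KK hD' i) (isCompact_KK i).measurableSet fun z hz =>
      mul_le_mul_of_nonneg_left (h i z hz) ((part n X).nonneg i _)

/-- a non-negative density with non-positive integral vanishes -/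
lemma eq_zero_of_intX {D : Chart n X → Cm n → ℝ} (hD : IsDensity D)
    (h : ∀ e x, At e x → 0 ≤ D e (e x)) (h0 : intX D ≤ 0) (x : X) :
    ∃ e, At e x ∧ D e (e x) = 0 := by
  set P := part n X with hP
  obtain ⟨i, hi⟩ : ∃ i, 0 < P.ρ i x := by
    by_contra hcon
    push Not at hcon
    have := P.sum x
    have h2 : ∑ i, P.ρ i x ≤ 0 := Finset.sum_nonpos fun i _ => hcon i
    linarith
  have hx : At (P.e i) x := ⟨P.mem i, P.supp i (subset_tsupport _ hi.ne')⟩
  refine ⟨P.e i, hx, ?_⟩
  have hnn : ∀ j, ∀ z ∈ (P.e j).target, 0 ≤ P.ρ j ((P.e j).symm z) * D (P.e j) z := fun j z hz => by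
    have := h (P.e j) ((P.e j).symm z) ⟨P.mem j, (P.e j).map_target hz⟩
    rw [(P.e j).right_inv hz] at this
    exact mul_nonneg (P.nonneg j _) this
  by_contra hne
  refine absurd h0 (not_le.2 ?_)
  unfold intX
  rw [← hP]
  refine Finset.sum_pos' (fun j _ => setIntegral_nonneg (P.e j).open_target.measurableSet (hnn j))
    ⟨i, Finset.mem_univ i, ?_⟩
  rw [setIntegral_pos_iff_support_of_nonneg_ae]
  · have hc : ContinuousAt (fun z => P.ρ i ((P.e i).symm z) * D (P.e i) z) (P.e i x) :=
      (hD.smul (P.cont i)).cont _ x hx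
    have hne' : P.ρ i ((P.e i).symm (P.e i x)) * D (P.e i) (P.e i x) ≠ 0 := by
      rw [hx.left_inv]; exact mul_ne_zero hi.ne' hne
    exact Measure.measure_pos_of_mem_nhds _ (inter_mem (hc.eventually_ne hne') hx.nhds_target)
  · filter_upwards [self_mem_ae_restrict (P.e i).open_target.measurableSet] with z hz
    exact hnn i z hz
  · exact INT.integrableOn_part P hD i

/-- The integral inequality. -/
theorem int_ineq (h1 : IsKahler g₁) (h2 : IsKahler g₂) (hψ : SmoothFn (n := n) ψ)
    (hH : ∀ e x, At e x → g₂ e (e x) - g₁ e (e x) = cHess (fun y => ψ (e.symm y)) (e x))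
    {ε C : ℝ} (hε : 0 ≤ ε) (hε' : (8 * (n : ℝ) ^ 2 + 2) * ε ≤ 1) (hC : 0 < C)
    (hQ : ∀ i, ∀ z ∈ KK n X i, ((g₂ ((part n X).e i) z)⁻¹ *
      (g₂ ((part n X).e i) z - g₁ ((part n X).e i) z) * ((g₂ ((part n X).e i) z)⁻¹ *
      (g₂ ((part n X).e i) z - g₁ ((part n X).e i) z))).trace.re ≤ ε ^ 2)
    (hW : ∀ i, ∀ z ∈ KK n X i,
      ((g₁ ((part n X).e i) z)⁻¹ * cHess (logdet g₁ ((part n X).e i)) z *
        (g₂ ((part n X).e i) z)⁻¹ *
        ((g₁ ((part n X).e i) z)⁻¹ * cHess (logdet g₁ ((part n X).e i)) z).conjTranspose *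
        g₂ ((part n X).e i) z).trace.re ≤ C) :
    intX (fun e z => ψ (e.symm z) * ((scal (g₂ e) z - scal (g₁ e) z) * (g₂ e z).det.re)) ≤
      C / 2 * intX (fun e z => ψ (e.symm z) ^ 2 * (g₂ e z).det.re) := by
  have k1 := h1.toIsHermitian
  have k2 := h2.toIsHermitian
  have hinv : ∀ e e' x, At e x → At e' x → logdet g₂ e (e x) - logdet g₁ e (e x) =
      logdet g₂ e' (e' x) - logdet g₁ e' (e' x) := fun e e' x h h' =>
    canonical_diff (isCanonical_logdet k2).change (isCanonical_logdet k1).change h h'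
  set F : X → ℝ := atX fun e z => logdet g₂ e z - logdet g₁ e z with hFdef
  have hF : SmoothFn (n := n) F :=
    AMP.smoothFn_atX (fun e x h => (logdet_smooth k2 h).sub (logdet_smooth k1 h)) hinv
  have hFv : ∀ e x, At e x → F x = logdet g₂ e (e x) - logdet g₁ e (e x) := fun e x h =>
    hinv _ _ x (AMP.at_chartAt x) h
  have hFh : ∀ e x, At e x → cHess (fun y => F (e.symm y)) (e x) =
      cHess (logdet g₂ e) (e x) - cHess (logdet g₁ e) (e x) := by
    intro e x h
    rw [← cHess_sub ((logdet_smooth k2 h).of_le two_le) ((logdet_smooth k1 h).of_le two_le)]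
    refine cHess_congr ?_
    filter_upwards [h.nhds_target] with z hz
    rw [hFv e _ (At.of_target h.1 hz), e.right_inv hz]
  have cψ := INT.SmoothFn.continuous hψ
  have d0 : IsDensity fun e z => (g₂ e z).det.re := INT.isDensity_det k2.change k2.smooth
  have d1 : IsDensity fun e z =>
      ψ (e.symm z) * ((scal (g₂ e) z - scal (g₁ e) z) * (g₂ e z).det.re) :=
    (densMul d0 (fun e x h => ((scal_smooth k2 h).sub (scal_smooth k1 h)).continuousAt)
      fun e e' x h h' => by rw [scal_change k2 h h', scal_change k1 h h']).smul cψ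
  have d2 := (AMP.isDensity_Ld k2 hF).smul cψ
  have d3 := (AMP.isDensity_Ld k2 hψ).smul (INT.SmoothFn.continuous hF)
  have c2 := INT.IsKahler.isClosedForm h2
  have hψ' : SmoothFn (n := n) fun x => -1 * ψ x := AMP.sm_const_mul _ hψ
  have d4 := (c2.add (INT.isClosedForm_cHess hψ)).isDensity
  have d5 := (c2.add (INT.isClosedForm_cHess hψ')).isDensity
  have d6 := (d0.smul (cψ.pow 2)).const_mul (C / 2)
  have key := intX_mono_KK (((d1.add d2).sub d3).add ((d4.add d5).sub (d0.const_mul 2))) d6 ?_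
  · rw [INT.intX_add ((d1.add d2).sub d3) ((d4.add d5).sub (d0.const_mul 2)),
      INT.intX_sub (d1.add d2) d3, INT.intX_add d1 d2, INT.intX_sub (d4.add d5) (d0.const_mul 2),
      INT.intX_add d4 d5, INT.intX_det_add_cHess c2 hψ, INT.intX_det_add_cHess c2 hψ',
      INT.intX_const_mul, INT.intX_const_mul, AMP.green h2 hF hψ] at key
    simp only [Pi.pow_apply] at key
    linarith
  intro i z hz
  have q := hQ i z hz
  have r := hW i z hz
  obtain ⟨x, hx, rfl⟩ := KK_at hz
  set e := (part n X).e i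
  have p1 := k1.posDef e x hx
  have p2 := k2.posDef e x hx
  have hψ2 : ContDiffAt ℝ 2 (fun y => ψ (e.symm y)) (e x) := (hψ e x hx).of_le two_le
  have hherm : (g₂ e (e x) - g₁ e (e x)).IsHermitian := p2.isHermitian.sub p1.isHermitian
  have pt := point_ineq (ψ := ψ x) p2 hherm hε hε' q hC r
  have u1 : IsUnit (g₁ e (e x)).det := isUnit_iff_ne_zero.2 p1.det_pos.ne'
  have u2 : IsUnit (g₂ e (e x)).det := isUnit_iff_ne_zero.2 p2.det_pos.ne'
  have e1 : (g₂ e (e x))⁻¹ * (g₂ e (e x) - g₁ e (e x)) *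
      ((g₁ e (e x))⁻¹ * cHess (logdet g₁ e) (e x)) =
      (g₁ e (e x))⁻¹ * cHess (logdet g₁ e) (e x) - (g₂ e (e x))⁻¹ * cHess (logdet g₁ e) (e x) := by
    rw [Matrix.mul_sub, Matrix.nonsing_inv_mul _ u2, Matrix.sub_mul, Matrix.one_mul,
      Matrix.mul_assoc, ← Matrix.mul_assoc (g₁ e (e x)), Matrix.mul_nonsing_inv _ u1,
      Matrix.one_mul]
  rw [e1, sub_sub_cancel] at pt
  simp only [Ld, scal_eq, AMP.trE, Pi.pow_apply]
  rw [hFh e x hx, cHess_const_mul _ hψ2, ← hH e x hx, hx.left_inv, hFv e x hx]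
  simp only [Matrix.mul_sub, Matrix.trace_sub, Complex.sub_re, logdet] at pt ⊢
  have e2 : g₂ e (e x) + ((-1 : ℝ) : ℂ) • (g₂ e (e x) - g₁ e (e x)) = g₁ e (e x) := by simp
  rw [e2]
  linarith

end Vale.Agent.P264Z

end
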