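import Vale.Agent.P264Z.Iface

/-!
# P264: the moment map of a radial potential
-/

noncomputable section

namespace Vale.Agent.P264Z

/-- The moment map of the potential `-b log (1 - y) + F y` in the variable `y = r / (1 + r)`,
`r = |z|²`. -/
def mom (b : ℝ) (F : ℝ → ℝ) (y : ℝ) : ℝ := b * y + y * (1 - y) * deriv F y

/-- `x - x² m x` is the momentum profile of the potential `F`. -/
def Prof (b : ℝ) (F m : ℝ → ℝ) : Prop :=
  ∀ y ∈ Set.Icc (0 : ℝ) 1,
    y * (1 - y) * deriv (mom b F) y = mom b F y - mom b F y ^ 2 * m (mom b F y)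

end Vale.Agent.P264Z
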