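import Vale.Agent.P264Z.G.Defs
import Vale.Agent.P264Z.G.CP
import Vale.Agent.P264Z.G.Mom
import Vale.Agent.P272.K.AMP.Iface

/-!
# P264: radial metrics on projective space (definitions)
-/

open scoped Manifold ContDiff ComplexOrder Topology
open Set

noncomputable section

namespace Vale.Agent.P264Z

open Vale.Agent.P272.K

variable {n : ℕ}

/-- `|z|²` -/
def nsq {ι : Type*} [Fintype ι] (z : ι → ℂ) : ℝ := ∑ i, ‖z i‖ ^ 2

/-- `Y [Z] = 1 - |Z₀|² / |Z|²`; in the chart `0` it is `|z|² / (1 + |z|²)`. -/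
def Yc (p : CP n) : ℝ := 1 - ‖(CP.rep p).1 0‖ ^ 2 / nsq (CP.rep p).1

/-- `b` times the Fubini-Study form -/
def fs (b : ℝ) (_e : Chart n (CP n)) (z : Cm n) : Matrix (Fin n) (Fin n) ℂ :=
  cHess (fun y => b * Real.log (1 + nsq y)) z

/-- the form `b ω_FS + i∂∂̄ F(Y)` -/
def wF (b : ℝ) (F : ℝ → ℝ) : Chart n (CP n) → Cm n → Matrix (Fin n) (Fin n) ℂ :=
  addDd (fs b) fun p => F (Yc p)

/-- `U` is a holomorphic map which preserves the form `w`. -/
structure IsIso {X : Type*} [TopologicalSpace X] [ChartedSpace (Cm n) X]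
    (w : Chart n X → Cm n → Matrix (Fin n) (Fin n) ℂ) (U : X → X) : Prop where
  cont : Continuous U
  holo : ∀ (e e' : Chart n X) x, At e x → At e' (U x) →
    ContDiffAt ℂ ω (fun z => e' (U (e.symm z))) (e x)
  pres : ∀ (e e' : Chart n X) x, At e x → At e' (U x) →
    w e (e x) = (jmat (fun z => e' (U (e.symm z))) (e x)).transpose * w e' (e' (U x)) *
      (jmat (fun z => e' (U (e.symm z))) (e x)).map (starRingEnd ℂ)

end Vale.Agent.P264Z

end
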