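import Vale.Agent.P264Z.G.Mom
import Vale.Agent.P220.H446.Wh

/-!
# P264: tools for the one-dimensional Legendre transform

Derivatives in each of two variables, primitives and inverse functions with a parameter.
-/

open scoped ContDiff
open Set Filter Topology MeasureTheory

noncomputable section

namespace Vale.Agent.P264Z.Leg

/-- derivative in the first variable -/
def dt (F : ℝ × ℝ → ℝ) (p : ℝ × ℝ) : ℝ := fderiv ℝ F p (1, 0)

/-- derivative in the second variable -/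
def dy (F : ℝ × ℝ → ℝ) (p : ℝ × ℝ) : ℝ := fderiv ℝ F p (0, 1)

theorem contDiff_dt {F : ℝ × ℝ → ℝ} (hF : ContDiff ℝ ∞ F) : ContDiff ℝ ∞ (dt F) :=
  (hF.fderiv_right (m := ∞) (by simp)).clm_apply contDiff_const

theorem contDiff_dy {F : ℝ × ℝ → ℝ} (hF : ContDiff ℝ ∞ F) : ContDiff ℝ ∞ (dy F) :=
  (hF.fderiv_right (m := ∞) (by simp)).clm_apply contDiff_const

/-- the chain rule along a curve in the plane -/
theorem hasDerivAt_comp2 {F : ℝ × ℝ → ℝ} (hF : ContDiff ℝ ∞ F) {a b : ℝ → ℝ} {a' b' s : ℝ}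
    (ha : HasDerivAt a a' s) (hb : HasDerivAt b b' s) :
    HasDerivAt (fun s => F (a s, b s)) (dt F (a s, b s) * a' + dy F (a s, b s) * b') s := by
  have h1 : HasFDerivAt F (fderiv ℝ F (a s, b s)) (a s, b s) :=
    (hF.differentiable (by simp) _).hasFDerivAt
  have h2 := h1.comp_hasDerivAt s (ha.prodMk hb)
  have e : ((a', b') : ℝ × ℝ) = a' • ((1 : ℝ), (0 : ℝ)) + b' • ((0 : ℝ), (1 : ℝ)) := by simp
  rw [e, map_add, map_smul, map_smul] at h2
  have e2 : dt F (a s, b s) * a' + dy F (a s, b s) * b' =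
      a' • fderiv ℝ F (a s, b s) (1, 0) + b' • fderiv ℝ F (a s, b s) (0, 1) := by
    simp only [dt, dy, smul_eq_mul]
    ring
  rw [e2]
  exact h2

theorem hasDerivAt_y {F : ℝ × ℝ → ℝ} (hF : ContDiff ℝ ∞ F) (t y : ℝ) :
    HasDerivAt (fun y => F (t, y)) (dy F (t, y)) y := by
  simpa using hasDerivAt_comp2 hF (hasDerivAt_const y t) (hasDerivAt_id' y)

theorem hasDerivAt_t {F : ℝ × ℝ → ℝ} (hF : ContDiff ℝ ∞ F) (t y : ℝ) :
    HasDerivAt (fun t => F (t, y)) (dt F (t, y)) t := by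
  simpa using hasDerivAt_comp2 hF (hasDerivAt_id' t) (hasDerivAt_const t y)

theorem dt_dy {F : ℝ × ℝ → ℝ} (hF : ContDiff ℝ ∞ F) (p : ℝ × ℝ) : dt (dy F) p = dy (dt F) p := by
  have hs : IsSymmSndFDerivAt ℝ F p := hF.contDiffAt.isSymmSndFDerivAt (by
    rw [minSmoothness_of_isRCLikeNormedField]
    exact WithTop.coe_le_coe.2 (le_top : (2 : ℕ∞) ≤ ⊤))
  have hd : HasFDerivAt (fderiv ℝ F) (fderiv ℝ (fderiv ℝ F) p) p :=
    ((hF.fderiv_right (m := ∞) (by simp)).differentiable (by simp) p).hasFDerivAt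
  have h : ∀ v w : ℝ × ℝ, fderiv ℝ (fun q => fderiv ℝ F q v) p w = fderiv ℝ (fderiv ℝ F) p w v := by
    intro v w
    rw [(hd.clm_apply (hasFDerivAt_const v p)).fderiv]
    simp
  exact (h (0, 1) (1, 0)).trans ((hs _ _).trans (h (1, 0) (0, 1)).symm)

/-- Functions that agree on a closed interval have the same derivative at each of its points. -/
theorem deriv_eq_of_eqOn {f g : ℝ → ℝ} {f' g' a b x : ℝ} (hab : a < b) (hx : x ∈ Icc a b)
    (hf : HasDerivAt f f' x) (hg : HasDerivAt g g' x) (h : ∀ y ∈ Icc a b, f y = g y) :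
    f' = g' :=
  (uniqueDiffOn_Icc hab x hx).eq_deriv _ hf.hasDerivWithinAt
    (hg.hasDerivWithinAt.congr h (h x hx))

theorem deriv_eq_of_eqOn_Ioo {f g : ℝ → ℝ} {f' g' a b x : ℝ} (hx : x ∈ Ioo a b)
    (hf : HasDerivAt f f' x) (hg : HasDerivAt g g' x) (h : ∀ y ∈ Ioo a b, f y = g y) :
    f' = g' := by
  have he : f =ᶠ[𝓝 x] g := by
    filter_upwards [isOpen_Ioo.mem_nhds hx] with y hy using h y hy
  exact hf.unique (hg.congr_of_eventuallyEq he)

/-- A smooth function equal to the identity above `c` and bounded below by `c / 2`. -/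
theorem exists_theta {c : ℝ} (hc : 0 < c) :
    ∃ θ : ℝ → ℝ, ContDiff ℝ ∞ θ ∧ (∀ s, c ≤ s → θ s = s) ∧ ∀ s, c / 2 ≤ θ s := by
  refine ⟨fun s => c / 2 + (s - c / 2) * Real.smoothTransition ((s - c / 2) / (c / 2)), ?_, ?_, ?_⟩
  · refine contDiff_const.add ((contDiff_id.sub contDiff_const).mul ?_)
    exact Real.smoothTransition.contDiff.comp ((contDiff_id.sub contDiff_const).div_const _)
  · intro s hs
    have : 1 ≤ (s - c / 2) / (c / 2) := by
      rw [le_div_iff₀ (by linarith)]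
      linarith
    simp only [Real.smoothTransition.one_of_one_le this]
    ring
  · intro s
    rcases le_or_gt s (c / 2) with h | h
    · have : (s - c / 2) / (c / 2) ≤ 0 := div_nonpos_of_nonpos_of_nonneg (by linarith) (by linarith)
      simp only [Real.smoothTransition.zero_of_nonpos this]
      linarith
    · have h1 := Real.smoothTransition.nonneg ((s - c / 2) / (c / 2))
      have h2 : 0 ≤ (s - c / 2) * Real.smoothTransition ((s - c / 2) / (c / 2)) :=
        mul_nonneg (by linarith) h1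
      simp only
      linarith

/-- A smooth function positive on a compact set agrees there with a smooth function that is
bounded below by a positive constant. -/
theorem exists_pos_ext {E : Type} [NormedAddCommGroup E] [NormedSpace ℝ E] {f : E → ℝ}
    (hf : ContDiff ℝ ∞ f) {K : Set E} (hK : IsCompact K) (hpos : ∀ x ∈ K, 0 < f x) :
    ∃ (g : E → ℝ) (c : ℝ), ContDiff ℝ ∞ g ∧ 0 < c ∧ (∀ x, c ≤ g x) ∧ ∀ x ∈ K, g x = f x := by
  obtain ⟨c, hc, hcf⟩ : ∃ c, 0 < c ∧ ∀ x ∈ K, c ≤ f x := by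
    rcases K.eq_empty_or_nonempty with rfl | hne
    · exact ⟨1, one_pos, fun x hx => absurd hx (notMem_empty x)⟩
    · obtain ⟨x, hx, hmin⟩ := hK.exists_isMinOn hne hf.continuous.continuousOn
      exact ⟨f x, hpos x hx, fun y hy => hmin hy⟩
  obtain ⟨θ, hθ, h1, h2⟩ := exists_theta hc
  exact ⟨fun x => θ (f x), c / 2, hθ.comp hf, by linarith, fun x => h2 _,
    fun x hx => h1 _ (hcf x hx)⟩

/-- A primitive in the second variable. -/
theorem exists_prim {k : ℝ × ℝ → ℝ} (hk : ContDiff ℝ ∞ k) :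
    ∃ K : ℝ × ℝ → ℝ, ContDiff ℝ ∞ K ∧ (∀ t, K (t, 0) = 0) ∧
      ∀ t y, HasDerivAt (fun y => K (t, y)) (k (t, y)) y := by
  refine ⟨fun p => p.2 * ∫ g : Icc (0 : ℝ) 1, k (p.1, g * p.2), ?_, fun t => by simp, ?_⟩
  · refine contDiff_snd.mul ?_
    have h1 : ContDiff ℝ ∞ fun p : ℝ × (ℝ × ℝ) => k (p.2.1, p.1 * p.2.2) :=
      hk.comp ((contDiff_fst.comp contDiff_snd).prodMk
        (contDiff_fst.mul (contDiff_snd.comp contDiff_snd)))
    exact Vale.Agent.P220.R2.H180.T.contDiff_par (Γ := Icc (0 : ℝ) 1) volume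
      (a := fun g => (g : ℝ)) continuous_subtype_val h1
  · intro t y
    have hc : Continuous fun s => k (t, s) := hk.continuous.comp (Continuous.prodMk_right t)
    have e : (fun y : ℝ => y * ∫ g : Icc (0 : ℝ) 1, k (t, g * y)) =
        fun y => ∫ s in (0 : ℝ)..y, k (t, s) := by
      funext y
      rw [Vale.Agent.P220.H446.integral_I (fun x => k (t, x * y))]
      have := intervalIntegral.smul_integral_comp_mul_right (fun s => k (t, s)) (a := 0) (b := 1) y
      simpa using this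
    simp only
    rw [e]
    exact (hc.integral_hasStrictDerivAt 0 y).hasDerivAt

theorem exists_prim1 {k : ℝ → ℝ} (hk : ContDiff ℝ ∞ k) :
    ∃ K : ℝ → ℝ, ContDiff ℝ ∞ K ∧ ∀ y, HasDerivAt K (k y) y := by
  obtain ⟨K, hK, -, h⟩ := exists_prim (k := fun p => k p.2) (hk.comp contDiff_snd)
  exact ⟨fun y => K (0, y), hK.comp (contDiff_const.prodMk contDiff_id), fun y => h 0 y⟩

/-- A global inverse in the second variable. -/
theorem exists_inv_global {X : ℝ × ℝ → ℝ} (hX : ContDiff ℝ ∞ X) {c : ℝ} (hc : 0 < c)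
    (hd : ∀ p, c ≤ dy X p) :
    ∃ G : ℝ × ℝ → ℝ, ContDiff ℝ ∞ G ∧ ∀ t y, G (t, X (t, y)) = y := by
  have hder := hasDerivAt_y hX
  have hmono : ∀ t, StrictMono fun y => X (t, y) := fun t =>
    strictMono_of_deriv_pos fun y => by rw [(hder t y).deriv]; exact hc.trans_le (hd _)
  have hgrow : ∀ t x y, x ≤ y → c * (y - x) ≤ X (t, y) - X (t, x) := fun t =>
    mul_sub_le_image_sub_of_le_deriv (fun y => (hder t y).differentiableAt)
      fun y => by rw [(hder t y).deriv]; exact hd _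
  have hsurj : ∀ t x, ∃ y, X (t, y) = x := by
    intro t x
    have hcont : Continuous fun y => X (t, y) := hX.continuous.comp (Continuous.prodMk_right t)
    set r := |x - X (t, 0)| / c with hr
    have hr0 : 0 ≤ r := by positivity
    have hcr : c * r = |x - X (t, 0)| := by rw [hr]; field_simp
    have h1 := hgrow t 0 r hr0
    have h2 := hgrow t (-r) 0 (by linarith)
    have h3 := le_abs_self (x - X (t, 0))
    have h4 := neg_abs_le (x - X (t, 0))
    obtain ⟨y, -, hy⟩ := intermediate_value_Icc (show -r ≤ r by linarith) hcont.continuousOn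
      (show x ∈ Icc (X (t, -r)) (X (t, r)) from ⟨by linarith, by linarith⟩)
    exact ⟨y, hy⟩
  choose g hg using hsurj
  refine ⟨fun q => g q.1 q.2, ?_, fun t y => (hmono t).injective (hg t _)⟩
  rw [contDiff_iff_contDiffAt]
  rintro ⟨t, x⟩
  set Φ : ℝ × ℝ → ℝ × ℝ := fun p => (p.1, X p) with hΦ
  have hΦc : ContDiff ℝ ∞ Φ := contDiff_fst.prodMk hX
  set p : ℝ × ℝ := (t, g t x) with hp
  set L : ℝ × ℝ →L[ℝ] ℝ × ℝ := (ContinuousLinearMap.fst ℝ ℝ ℝ).prod (fderiv ℝ X p) with hL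
  have hΦd : HasFDerivAt Φ L p :=
    hasFDerivAt_fst.prodMk (hX.differentiable (by simp) p).hasFDerivAt
  have hinj : Function.Injective (L : ℝ × ℝ →ₗ[ℝ] ℝ × ℝ) := by
    rw [injective_iff_map_eq_zero]
    rintro ⟨u, v⟩ h
    have h1 : u = 0 := congrArg Prod.fst h
    have h2 : fderiv ℝ X p (u, v) = 0 := congrArg Prod.snd h
    subst h1
    have e : (((0 : ℝ), v) : ℝ × ℝ) = v • ((0 : ℝ), (1 : ℝ)) := by simp
    rw [e, map_smul, smul_eq_mul] at h2
    have h3 : 0 < fderiv ℝ X p (0, 1) := hc.trans_le (hd p)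
    have h4 : v = 0 := (mul_eq_zero.1 h2).resolve_right h3.ne'
    rw [h4]
    rfl
  set e : (ℝ × ℝ) ≃L[ℝ] (ℝ × ℝ) :=
    (LinearEquiv.ofInjectiveEndo _ hinj).toContinuousLinearEquiv with he
  have hΦe : HasFDerivAt Φ (e : ℝ × ℝ →L[ℝ] ℝ × ℝ) p := by
    have : (e : ℝ × ℝ →L[ℝ] ℝ × ℝ) = L := by
      ext <;> rfl
    rw [this]
    exact hΦd
  have hn : (∞ : WithTop ℕ∞) ≠ 0 := by simp
  have h1 := hΦc.contDiffAt.to_localInverse hΦe hn
  have h2 := (hΦc.contDiffAt.hasStrictFDerivAt' hΦe hn).eventually_right_inverse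
  have hpt : Φ p = (t, x) := by simp only [hΦ, hp, hg]
  rw [hpt] at h1 h2
  refine (contDiffAt_snd.comp _ h1).congr_of_eventuallyEq ?_
  filter_upwards [h2] with q hq
  have h3 := congrArg Prod.fst hq
  have h4 := congrArg Prod.snd hq
  simp only [hΦ] at h3 h4
  refine (hmono q.1).injective ?_
  simp only [hg, Function.comp]
  rw [← h4]
  congr 1
  exact Prod.ext h3 rfl

/-- An inverse in the second variable on a box. -/
theorem exists_inv_box {X : ℝ × ℝ → ℝ} (hX : ContDiff ℝ ∞ X) {a b : ℝ} (ha : 0 < a)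
    (hd : ∀ t ∈ Icc (0 : ℝ) 1, ∀ y ∈ Icc 0 a, 0 < dy X (t, y))
    (h0 : ∀ t ∈ Icc (0 : ℝ) 1, X (t, 0) = 0) (hb : ∀ t ∈ Icc (0 : ℝ) 1, X (t, a) = b) :
    ∃ G : ℝ × ℝ → ℝ, ContDiff ℝ ∞ G ∧
      (∀ t ∈ Icc (0 : ℝ) 1, ∀ y ∈ Icc 0 a, G (t, X (t, y)) = y) ∧
      ∀ t ∈ Icc (0 : ℝ) 1, ∀ x ∈ Icc 0 b, G (t, x) ∈ Icc 0 a ∧ X (t, G (t, x)) = x := by
  obtain ⟨k, c, hk, hc, hck, hkX⟩ := exists_pos_ext (contDiff_dy hX)
    (isCompact_Icc.prod isCompact_Icc : IsCompact (Icc (0 : ℝ) 1 ×ˢ Icc (0 : ℝ) a))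
    (fun p hp => hd p.1 hp.1 p.2 hp.2)
  obtain ⟨K, hK, hK0, hKd⟩ := exists_prim hk
  have hKX : ∀ t ∈ Icc (0 : ℝ) 1, ∀ y ∈ Icc 0 a, K (t, y) = X (t, y) := by
    intro t ht
    refine eq_of_has_deriv_right_eq (f' := fun y => dy X (t, y)) (fun y hy => ?_)
      (fun y _ => (hasDerivAt_y hX t y).hasDerivWithinAt)
      (hK.continuous.comp (Continuous.prodMk_right t)).continuousOn
      (hX.continuous.comp (Continuous.prodMk_right t)).continuousOn (by rw [hK0, h0 t ht])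
    rw [← hkX (t, y) ⟨ht, Ico_subset_Icc_self hy⟩]
    exact (hKd t y).hasDerivWithinAt
  obtain ⟨G, hG, hGK⟩ := exists_inv_global hK hc (fun p => by
    rw [(hasDerivAt_y hK p.1 p.2).unique (hKd p.1 p.2)]
    exact hck p)
  have h1 : ∀ t ∈ Icc (0 : ℝ) 1, ∀ y ∈ Icc 0 a, G (t, X (t, y)) = y := by
    intro t ht y hy
    rw [← hKX t ht y hy, hGK]
  refine ⟨G, hG, h1, fun t ht x hx => ?_⟩
  obtain ⟨y, hy, hxy⟩ := intermediate_value_Icc ha.le
    (hX.continuous.comp (Continuous.prodMk_right t)).continuousOn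
    (show x ∈ Icc (X (t, 0)) (X (t, a)) by rw [h0 t ht, hb t ht]; exact hx)
  simp only [Function.comp] at hxy
  rw [← hxy, h1 t ht y hy]
  exact ⟨hy, rfl⟩

/-- Division by `x - a`. -/
theorem exists_div1 {f : ℝ → ℝ} (hf : ContDiff ℝ ∞ f) {a : ℝ} (ha : f a = 0) :
    ∃ g : ℝ → ℝ, ContDiff ℝ ∞ g ∧ ∀ x, f x = (x - a) * g x := by
  obtain ⟨δ, hδ, h, -⟩ := Vale.Agent.P220.H446.exists_div (γ := fun x => f (a + x))
    (hf.comp (contDiff_const.add contDiff_id)) (by simpa using ha)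
  refine ⟨fun x => δ (x - a), hδ.comp (contDiff_id.sub contDiff_const), fun x => ?_⟩
  simpa using h (x - a)

/-- Division by `x (a - x)`. -/
theorem exists_div2 {f : ℝ → ℝ} (hf : ContDiff ℝ ∞ f) {a : ℝ} (ha0 : a ≠ 0) (h0 : f 0 = 0)
    (ha : f a = 0) : ∃ g : ℝ → ℝ, ContDiff ℝ ∞ g ∧ ∀ x, f x = x * (a - x) * g x := by
  obtain ⟨g, hg, h1⟩ := exists_div1 hf h0
  have h2 : g a = 0 := by
    have := h1 a
    rw [ha, sub_zero] at this
    exact (mul_eq_zero.1 this.symm).resolve_left ha0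
  obtain ⟨g2, hg2, h3⟩ := exists_div1 hg h2
  refine ⟨fun x => -g2 x, hg2.neg, fun x => ?_⟩
  rw [h1 x, h3 x]
  ring

end Vale.Agent.P264Z.Leg
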