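import Vale.Agent.P264Z.G.Leg1

/-!
# P264: a potential with a prescribed momentum profile
-/

open scoped ContDiff
open Set Filter Topology

noncomputable section

namespace Vale.Agent.P264Z

open Leg

/-- The inverse moment map of an admissible profile. -/
theorem Leg.exists_Y {b : ℝ} (hb : 0 < b) {m0 : ℝ → ℝ} (hm : ContDiff ℝ ∞ m0) (ha : Adm b m0) :
    ∃ Y : ℝ → ℝ, ContDiff ℝ ∞ Y ∧ Y 0 = 0 ∧ Y b = 1 ∧ ∀ x ∈ Icc 0 b, 0 < deriv Y x ∧
      Y x * (1 - Y x) = (x - x ^ 2 * m0 x) * deriv Y x := by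
  have hw : ContDiff ℝ ∞ fun x => x * m0 x - 1 := (contDiff_id.mul hm).sub contDiff_const
  obtain ⟨k, hk, hwk⟩ := exists_div1 hw (a := b) (by rw [ha.val]; field_simp; ring)
  have hkb : k b = 1 / b := by
    have h1 : HasDerivAt (fun x => x * m0 x - 1) (1 * m0 b + b * deriv m0 b) b :=
      ((hasDerivAt_id' b).mul (hm.differentiable (by simp) b).hasDerivAt).sub_const 1
    have h2 : HasDerivAt (fun x => (x - b) * k x) (1 * k b + (b - b) * deriv k b) b :=
      ((hasDerivAt_id' b).sub_const b).mul (hk.differentiable (by simp) b).hasDerivAt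
    have h3 := h1.unique (by rw [funext hwk]; exact h2)
    rw [ha.val, ha.der] at h3
    linarith
  have hk0 : k 0 = 1 / b := by
    have := hwk 0
    field_simp
    linarith
  have hkpos : ∀ x ∈ Icc 0 b, 0 < k x := by
    intro x hx
    rcases hx.2.eq_or_lt with rfl | hxb
    · rw [hkb]; positivity
    · have h1 := ha.pos x hx.1 hxb
      have h2 := hwk x
      by_contra hc
      have : 0 ≤ (x - b) * k x := mul_nonneg_of_nonpos_of_nonpos (by linarith) (not_lt.1 hc)
      linarith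
  obtain ⟨r, hr, hrk⟩ := exists_div2 (f := fun x => 1 - b * k x)
    (contDiff_const.sub (contDiff_const.mul hk)) hb.ne' (by rw [hk0]; field_simp; ring)
    (by rw [hkb]; field_simp; ring)
  obtain ⟨k', c, hk', hc, hck, hkk⟩ := exists_pos_ext hk isCompact_Icc hkpos
  have hh : ContDiff ℝ ∞ fun x => r x / k' x := hr.div hk' fun x => (hc.trans_le (hck x)).ne'
  obtain ⟨H, hH, hHd⟩ := exists_prim1 hh
  have hE : ContDiff ℝ ∞ fun x => Real.exp (H x) := hH.exp
  have hN : ContDiff ℝ ∞ fun x => b - x + x * Real.exp (H x) :=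
    (contDiff_const.sub contDiff_id).add (contDiff_id.mul hE)
  have hNpos : ∀ x ∈ Icc 0 b, 0 < b - x + x * Real.exp (H x) := by
    intro x hx
    have h1 := Real.exp_pos (H x)
    rcases hx.1.eq_or_lt with rfl | hx0
    · simpa using hb
    · have : 0 < x * Real.exp (H x) := mul_pos hx0 h1
      linarith [hx.2]
  obtain ⟨N', c', hN', hc', hcN, hNN⟩ := exists_pos_ext hN isCompact_Icc hNpos
  have hY : ContDiff ℝ ∞ fun x => x * Real.exp (H x) / N' x :=
    (contDiff_id.mul hE).div hN' fun x => (hc'.trans_le (hcN x)).ne'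
  refine ⟨fun x => x * Real.exp (H x) / N' x, hY, by simp, ?_, fun x hx => ?_⟩
  · simp only
    rw [hNN b ⟨hb.le, le_rfl⟩, sub_self, zero_add, div_self]
    exact (mul_pos hb (Real.exp_pos _)).ne'
  · have hNx := hNpos x hx
    have hkx := hkpos x hx
    have hEd : HasDerivAt (fun x => Real.exp (H x)) (Real.exp (H x) * (r x / k x)) x := by
      rw [← hkk x hx]
      exact (hHd x).exp
    have hU : HasDerivAt (fun x => x * Real.exp (H x))
        (1 * Real.exp (H x) + x * (Real.exp (H x) * (r x / k x))) x := (hasDerivAt_id' x).mul hEd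
    have hV := (((hasDerivAt_id' x).const_sub b).add hU)
    have hQ := hU.div hV hNx.ne'
    have hd := deriv_eq_of_eqOn hb hx (hY.differentiable (by simp) x).hasDerivAt hQ
      (fun y hy => by simp only [hNN y hy, Pi.div_apply, Pi.add_apply])
    have hrx : x * (b - x) * r x = 1 - b * k x := (hrk x).symm
    have hd2 : deriv (fun x => x * Real.exp (H x) / N' x) x =
        Real.exp (H x) / (k x * (b - x + x * Real.exp (H x)) ^ 2) := by
      rw [hd, ← div_div]
      simp only [Pi.add_apply]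
      congr 1
      field_simp
      linear_combination hrx
    rw [hd2]
    refine ⟨by positivity, ?_⟩
    have hφ : x - x ^ 2 * m0 x = x * (b - x) * k x := by
      have := hwk x
      linear_combination (-x) * this
    simp only
    rw [hNN x hx, hφ]
    field_simp
    ring

theorem init_exists {b : ℝ} (hb : 0 < b) {m0 : ℝ → ℝ} (hm : ContDiff ℝ ∞ m0) (ha : Adm b m0) :
    ∃ F0 : ℝ → ℝ, ContDiff ℝ ∞ F0 ∧ (∀ y ∈ Icc (0 : ℝ) 1, 0 < deriv (mom b F0) y) ∧
      Prof b F0 m0 := by
  obtain ⟨Y, hY, hY0, hYb, hYd⟩ := Leg.exists_Y hb hm ha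
  have hY2 : ContDiff ℝ ∞ fun p : ℝ × ℝ => Y p.2 := hY.comp contDiff_snd
  have hYder : ∀ x, HasDerivAt Y (deriv Y x) x := fun x =>
    (hY.differentiable (by simp) x).hasDerivAt
  obtain ⟨G, hG, hG1, hG2⟩ := exists_inv_box hY2 (a := b) (b := 1) hb
    (fun t _ y hy => by
      rw [(hasDerivAt_y hY2 t y).unique (hYder y)]
      exact (hYd y hy).1)
    (fun _ _ => hY0) (fun _ _ => hYb)
  have h01 : (0 : ℝ) ∈ Icc (0 : ℝ) 1 := ⟨le_rfl, zero_le_one⟩
  set X : ℝ → ℝ := fun y => G (0, y) with hXdef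
  have hX : ContDiff ℝ ∞ X := hG.comp (contDiff_const.prodMk contDiff_id)
  have hX0 : X 0 = 0 := by simpa [hY0] using hG1 0 h01 0 ⟨le_rfl, hb.le⟩
  have hX1 : X 1 = b := by simpa [hYb] using hG1 0 h01 b ⟨hb.le, le_rfl⟩
  obtain ⟨k, hk, hXk⟩ := exists_div2 (f := fun y => X y - b * y)
    (hX.sub (contDiff_const.mul contDiff_id)) one_ne_zero (by simp [hX0]) (by simp [hX1])
  obtain ⟨F0, hF0, hFd⟩ := exists_prim1 hk
  have hmom : mom b F0 = X := by
    funext y
    rw [mom, (hFd y).deriv, ← hXk y]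
    ring
  have hprod : ∀ y ∈ Icc (0 : ℝ) 1, deriv Y (X y) * deriv X y = 1 := by
    intro y hy
    have h1 := (hYder (X y)).comp y (hX.differentiable (by simp) y).hasDerivAt
    exact deriv_eq_of_eqOn zero_lt_one hy h1 (hasDerivAt_id' y) fun z hz => (hG2 0 h01 z hz).2
  refine ⟨F0, hF0, fun y hy => ?_, fun y hy => ?_⟩
  · rw [hmom]
    have h1 := (hYd _ (hG2 0 h01 y hy).1).1
    have h2 := hprod y hy
    by_contra hc
    have : deriv Y (X y) * deriv X y ≤ 0 := mul_nonpos_of_nonneg_of_nonpos h1.le (not_lt.1 hc)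
    linarith
  · rw [hmom]
    have h1 := (hYd _ (hG2 0 h01 y hy).1).2
    have h3 : Y (X y) = y := (hG2 0 h01 y hy).2
    change Y (X y) * (1 - Y (X y)) = (X y - X y ^ 2 * m0 (X y)) * deriv Y (X y) at h1
    rw [h3] at h1
    rw [h1, mul_assoc, hprod y hy, mul_one]

end Vale.Agent.P264Z
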