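import Vale.Agent.P264Z.G.Defs
import Vale.Agent.P272.K.AMP.Green
import Vale.Agent.P272.K.AMP.Iface
import Mathlib.Analysis.Calculus.ParametricIntegral

/-!
# Functions of time and of a point of a chart
-/

open scoped Manifold ContDiff ComplexOrder Topology
open Set Filter MeasureTheory

noncomputable section

namespace Vale.Agent.P264Z

open Vale.Agent.P272.K

variable {n : ℕ} {J : Set ℝ} {t : ℝ} {z : Cm n}

/-- smooth in time (within `J`) and space at the point `p` -/
def SmJ {E : Type*} [NormedAddCommGroup E] [NormedSpace ℝ E] (J : Set ℝ) (f : ℝ × Cm n → E)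
    (p : ℝ × Cm n) : Prop := ContDiffWithinAt ℝ ∞ f (J ×ˢ univ) p

section
variable {E : Type*} [NormedAddCommGroup E] [NormedSpace ℝ E] {f : ℝ × Cm n → E}

lemma SmJ.slice (h : SmJ J f (t, z)) (ht : t ∈ J) : ContDiffAt ℝ ∞ (fun y => f (t, y)) z := by
  rw [← contDiffWithinAt_univ]
  exact ContDiffWithinAt.comp z (g := f) (f := fun y => (t, y)) h
    (contDiffWithinAt_const.prodMk contDiffWithinAt_id) fun y _ => ⟨ht, mem_univ _⟩

lemma SmJ.of_space {g : Cm n → E} (h : ContDiffAt ℝ ∞ g z) : SmJ J (fun p => g p.2) (t, z) :=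
  (ContDiffAt.comp (t, z) (g := g) h contDiffAt_snd).contDiffWithinAt

lemma SmJ.fd (h : SmJ J f (t, z)) (ht : t ∈ J) (v : Cm n) :
    SmJ J (fun p => fderiv ℝ (fun y => f (p.1, y)) p.2 v) (t, z) := by
  have h1 : ContDiffWithinAt ℝ ∞ (Function.uncurry fun (p : ℝ × Cm n) (y : Cm n) => f (p.1, y))
      ((J ×ˢ univ) ×ˢ univ) ((t, z), ((t, z) : ℝ × Cm n).2) :=
    ContDiffWithinAt.comp ((t, z), z) (g := f) (f := fun q : (ℝ × Cm n) × Cm n => (q.1.1, q.2)) h
      (contDiffWithinAt_fst.fst.prodMk contDiffWithinAt_snd) fun q hq => ⟨hq.1.1, mem_univ _⟩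
  have h2 := h1.fderivWithin_apply (m := ∞) (k := fun _ => v) contDiffWithinAt_snd
    contDiffWithinAt_const uniqueDiffOn_univ (by simp) ⟨ht, mem_univ _⟩ (fun _ _ => mem_univ _)
  simp only [fderivWithin_univ] at h2
  exact h2

lemma SmJ.continuousWithinAt {p : ℝ × Cm n} (h : SmJ J f p) :
    ContinuousWithinAt f (J ×ˢ univ) p := ContDiffWithinAt.continuousWithinAt h

end

lemma SmJ.dz {f : ℝ × Cm n → ℂ} (h : SmJ J f (t, z)) (ht : t ∈ J) (i : Fin n) :
    SmJ J (fun p => dz i (fun y => f (p.1, y)) p.2) (t, z) :=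
  ((h.fd ht _).sub (contDiffWithinAt_const.mul (h.fd ht _))).div_const _

lemma SmJ.dzb {f : ℝ × Cm n → ℂ} (h : SmJ J f (t, z)) (ht : t ∈ J) (i : Fin n) :
    SmJ J (fun p => dzb i (fun y => f (p.1, y)) p.2) (t, z) :=
  ((h.fd ht _).add (contDiffWithinAt_const.mul (h.fd ht _))).div_const _

lemma SmJ.cHess {f : ℝ × Cm n → ℝ} (h : SmJ J f (t, z)) (ht : t ∈ J) (i j : Fin n) :
    SmJ J (fun p => cHess (fun y => f (p.1, y)) p.2 i j) (t, z) := by
  have h1 : SmJ J (fun p => (f p : ℂ)) (t, z) :=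
    Complex.ofRealCLM.contDiff.contDiffAt.comp_contDiffWithinAt (t, z) h
  exact (h1.dzb ht j).dz ht i

lemma SmJ.det_re {M : ℝ × Cm n → Matrix (Fin n) (Fin n) ℂ} {p : ℝ × Cm n}
    (h : ∀ i j, SmJ J (fun p => M p i j) p) : SmJ J (fun p => (M p).det.re) p := by
  have h1 : ContDiffWithinAt ℝ ∞ (fun p => (M p).det) (J ×ˢ univ) p := by
    simp only [Matrix.det_apply']
    exact ContDiffWithinAt.sum fun σ _ =>
      contDiffWithinAt_const.mul (contDiffWithinAt_prod fun i _ => h (σ i) i)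
  exact Complex.reCLM.contDiff.contDiffAt.comp_contDiffWithinAt p h1

lemma cw_matrix {M : ℝ × Cm n → Matrix (Fin n) (Fin n) ℂ} {p : ℝ × Cm n}
    (h : ∀ i j, SmJ J (fun p => M p i j) p) : ContinuousWithinAt M (J ×ˢ univ) p :=
  continuousWithinAt_pi.2 fun i => continuousWithinAt_pi.2 fun j => (h i j).continuousWithinAt

lemma cw_inv {α : Type*} [TopologicalSpace α] {M : α → Matrix (Fin n) (Fin n) ℂ} {s : Set α}
    {p : α} (h : ContinuousWithinAt M s p) (h0 : (M p).det ≠ 0) :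
    ContinuousWithinAt (fun q => (M q)⁻¹) s p := by
  refine ContinuousAt.comp_continuousWithinAt (continuousAt_matrix_inv _ ?_) h
  rw [Ring.inverse_eq_inv']
  exact continuousAt_inv₀ h0

lemma cw_trace_re {α : Type*} [TopologicalSpace α] {M : α → Matrix (Fin n) (Fin n) ℂ} {s : Set α}
    {p : α} (h : ContinuousWithinAt M s p) : ContinuousWithinAt (fun q => (M q).trace.re) s p :=
  (Complex.continuous_re.comp continuous_id.matrix_trace).continuousAt.comp_continuousWithinAt h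

lemma cw_conjTranspose {α : Type*} [TopologicalSpace α] {M : α → Matrix (Fin n) (Fin n) ℂ}
    {s : Set α} {p : α} (h : ContinuousWithinAt M s p) :
    ContinuousWithinAt (fun q => (M q).conjTranspose) s p :=
  (continuous_id.matrix_conjTranspose).continuousAt.comp_continuousWithinAt h

/-- a bound on a compact set -/
lemma exists_bound {K : Set (Cm n)} (hK : IsCompact K) {a b : ℝ} {G : ℝ × Cm n → ℝ}
    (hG : ∀ t ∈ Icc a b, ∀ z ∈ K, ContinuousWithinAt G (Icc a b ×ˢ univ) (t, z)) :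
    ∃ C, 0 < C ∧ ∀ t ∈ Icc a b, ∀ z ∈ K, G (t, z) ≤ C := by
  have hc : ContinuousOn G (Icc a b ×ˢ K) := fun p hp =>
    (hG p.1 hp.1 p.2 hp.2).mono (prod_mono_right (subset_univ _))
  obtain ⟨C, hC⟩ := (isCompact_Icc.prod hK).exists_bound_of_continuousOn hc
  exact ⟨|C| + 1, by positivity, fun t ht z hz =>
    (le_abs_self _).trans ((hC (t, z) ⟨ht, hz⟩).trans (by linarith [le_abs_self C]))⟩

/-- smallness near a time at which the function vanishes -/
lemma eventually_small {K : Set (Cm n)} (hK : IsCompact K) {a ε : ℝ} (hε : 0 < ε)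
    {G : ℝ × Cm n → ℝ} (hG : ∀ z ∈ K, ContinuousWithinAt G (J ×ˢ univ) (a, z))
    (h0 : ∀ z ∈ K, G (a, z) = 0) : ∀ᶠ t in 𝓝 a, t ∈ J → ∀ z ∈ K, G (t, z) ≤ ε := by
  have := hK.eventually_forall_of_forall_eventually (x₀ := a)
    (P := fun t z => t ∈ J → G (t, z) ≤ ε) fun z hz => by
      have h1 : ∀ᶠ p in 𝓝[J ×ˢ univ] (a, z), G p < ε :=
        (hG z hz).eventually (gt_mem_nhds (by rw [h0 z hz]; exact hε))
      filter_upwards [eventually_nhdsWithin_iff.1 h1] with p hp hpJ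
      exact (hp ⟨hpJ, mem_univ _⟩).le
  filter_upwards [this] with t ht htJ z hz using ht z hz htJ

/-- the time derivative -/
def dT (J : Set ℝ) (G : ℝ × Cm n → ℝ) (p : ℝ × Cm n) : ℝ :=
  fderivWithin ℝ G (J ×ˢ univ) p (1, 0)

lemma SmJ.dT_cont {G : ℝ × Cm n → ℝ} (h : SmJ J G (t, z)) (ht : t ∈ J) (hJ : UniqueDiffOn ℝ J) :
    ContinuousWithinAt (dT J G) (J ×ˢ univ) (t, z) :=
  ((ContDiffWithinAt.fderivWithin_right (m := 0) h (hJ.prod uniqueDiffOn_univ) (by simp)
    ⟨ht, mem_univ _⟩).clm_apply contDiffWithinAt_const).continuousWithinAt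

lemma SmJ.hasDerivAt {G : ℝ × Cm n → ℝ} (h : SmJ J G (t, z)) (ht : J ∈ 𝓝 t) :
    HasDerivAt (fun s => G (s, z)) (dT J G (t, z)) t := by
  have hn : J ×ˢ (univ : Set (Cm n)) ∈ 𝓝 (t, z) := prod_mem_nhds ht univ_mem
  have h1 : HasFDerivAt G (fderivWithin ℝ G (J ×ˢ univ) (t, z)) (t, z) :=
    (ContDiffWithinAt.differentiableWithinAt h (by simp)).hasFDerivWithinAt.hasFDerivAt hn
  have h2 : HasDerivAt (fun s : ℝ => ((s, z) : ℝ × Cm n)) (1, 0) t :=
    (hasDerivAt_id t).prodMk (hasDerivAt_const t z)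
  exact h1.comp_hasDerivAt t h2

/-- differentiation under the integral over a compact set -/
lemma int_deriv {K : Set (Cm n)} (hK : IsCompact K) {a b : ℝ} (hab : a < b) {G : ℝ × Cm n → ℝ}
    (hG : ∀ t ∈ Icc a b, ∀ z ∈ K, SmJ (Icc a b) G (t, z)) :
    ContinuousOn (fun t => ∫ z in K, G (t, z)) (Icc a b) ∧ ∀ t ∈ Ioo a b,
      IntegrableOn (fun z => dT (Icc a b) G (t, z)) K ∧
      HasDerivAt (fun t => ∫ z in K, G (t, z)) (∫ z in K, dT (Icc a b) G (t, z)) t := by
  have hfin : volume K ≠ ⊤ := hK.measure_lt_top.ne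
  have sl : ∀ {H : ℝ × Cm n → ℝ}, (∀ t ∈ Icc a b, ∀ z ∈ K,
      ContinuousWithinAt H (Icc a b ×ˢ univ) (t, z)) → ∀ t ∈ Icc a b,
      ContinuousOn (fun z => H (t, z)) K := by
    intro H hH t ht z hz
    exact ContinuousWithinAt.comp (g := H) (f := fun y => (t, y)) (hH t ht z hz)
      (continuous_const.prodMk continuous_id).continuousWithinAt fun y _ => ⟨ht, mem_univ _⟩
  have c0 : ∀ t ∈ Icc a b, ∀ z ∈ K, ContinuousWithinAt G (Icc a b ×ˢ univ) (t, z) :=
    fun t ht z hz => (hG t ht z hz).continuousWithinAt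
  have c1 : ∀ t ∈ Icc a b, ∀ z ∈ K, ContinuousWithinAt (dT (Icc a b) G) (Icc a b ×ˢ univ) (t, z) :=
    fun t ht z hz => (hG t ht z hz).dT_cont ht (uniqueDiffOn_Icc hab)
  obtain ⟨C0, -, hC0⟩ := exists_bound hK (G := fun p => ‖G p‖) fun t ht z hz => (c0 t ht z hz).norm
  obtain ⟨C1, -, hC1⟩ := exists_bound hK (G := fun p => ‖dT (Icc a b) G p‖)
    fun t ht z hz => (c1 t ht z hz).norm
  have hm := self_mem_ae_restrict (μ := volume) hK.measurableSet
  refine ⟨?_, fun t ht => ?_⟩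
  · refine continuousOn_of_dominated (bound := fun _ => C0)
      (fun t ht => (sl c0 t ht).aestronglyMeasurable hK.measurableSet)
      (fun t ht => ?_) (integrableOn_const hfin) ?_
    · filter_upwards [hm] with z hz using hC0 t ht z hz
    · filter_upwards [hm] with z hz t ht
      exact ContinuousWithinAt.comp (g := G) (f := fun s => (s, z)) (c0 t ht z hz)
        (continuous_id.prodMk continuous_const).continuousWithinAt fun s hs => ⟨hs, mem_univ _⟩
  · have ht' : t ∈ Icc a b := Ioo_subset_Icc_self ht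
    refine hasDerivAt_integral_of_dominated_loc_of_deriv_le (μ := volume.restrict K)
      (F := fun t z => G (t, z)) (F' := fun t z => dT (Icc a b) G (t, z)) (bound := fun _ => C1)
      (s := Ioo a b) (isOpen_Ioo.mem_nhds ht) ?_ ((sl c0 t ht').integrableOn_compact hK)
      ((sl c1 t ht').aestronglyMeasurable hK.measurableSet) ?_ (integrableOn_const hfin) ?_
    · filter_upwards [Icc_mem_nhds ht.1 ht.2] with s hs
      exact (sl c0 s hs).aestronglyMeasurable hK.measurableSet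
    · filter_upwards [hm] with z hz s hs using hC1 s (Ioo_subset_Icc_self hs) z hz
    · filter_upwards [hm] with z hz s hs
      exact (hG s (Ioo_subset_Icc_self hs) z hz).hasDerivAt (Icc_mem_nhds hs.1 hs.2)

/-- Gronwall's lemma in the form used here -/
lemma gronwall_zero {a b C : ℝ} {E E' : ℝ → ℝ} (hc : ContinuousOn E (Icc a b))
    (hd : ∀ t ∈ Ioo a b, HasDerivAt E (E' t) t) (hle : ∀ t ∈ Ioo a b, E' t ≤ C * E t)
    (h0 : E a = 0) : ∀ t ∈ Icc a b, E t ≤ 0 := by
  have hd' : ∀ t ∈ Ioo a b, HasDerivAt (fun t => E t * Real.exp (-C * t))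
      (E' t * Real.exp (-C * t) + E t * (Real.exp (-C * t) * (-C * 1))) t := fun t ht =>
    (hd t ht).mul (((hasDerivAt_id t).const_mul (-C)).exp)
  have hanti : AntitoneOn (fun t => E t * Real.exp (-C * t)) (Icc a b) := by
    refine antitoneOn_of_deriv_nonpos (convex_Icc a b) (hc.mul (by fun_prop)) ?_ ?_
    · rw [interior_Icc]; exact fun t ht => (hd' t ht).differentiableAt.differentiableWithinAt
    · rw [interior_Icc]
      intro t ht
      rw [(hd' t ht).deriv]
      nlinarith [mul_le_mul_of_nonneg_right (hle t ht) (Real.exp_pos (-C * t)).le]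
  intro t ht
  have := hanti (left_mem_Icc.2 (ht.1.trans ht.2)) ht ht.1
  simp only [h0, zero_mul] at this
  by_contra h
  exact absurd this (not_le.2 (mul_pos (not_le.1 h) (Real.exp_pos _)))

end Vale.Agent.P264Z

end
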