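import Vale.Agent.P264Z.G.Uniq
import Vale.Agent.P264Z.G.GDefs

/-!
# Invariance of the Calabi flow under holomorphic isometries of the initial metric
-/

open scoped Manifold ContDiff ComplexOrder Topology
open Set Filter

noncomputable section

namespace Vale.Agent.P264Z

open Vale.Agent.P272.K

variable {n : ℕ}

lemma scal_congr {g g' : Cm n → Matrix (Fin n) (Fin n) ℂ} {z : Cm n} (h : g =ᶠ[𝓝 z] g') :
    scal g z = scal g' z := by
  unfold scal
  rw [h.eq_of_nhds, cHess_congr (f := fun y => Real.log (g y).det.re)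
    (g := fun y => Real.log (g' y).det.re) (by filter_upwards [h] with y hy; rw [hy])]

lemma det_pull (J M : Matrix (Fin n) (Fin n) ℂ) :
    (J.transpose * M * J.map (starRingEnd ℂ)).det.re = ‖J.det‖ ^ 2 * M.det.re := by
  have : (J.map (starRingEnd ℂ)).det = (starRingEnd ℂ) J.det := by
    rw [RingHom.map_det]; rfl
  rw [Matrix.det_mul, Matrix.det_mul, Matrix.det_transpose, this, mul_right_comm,
    Complex.mul_conj, Complex.normSq_eq_norm_sq, Complex.re_ofReal_mul]

lemma jmat_det_holo {τ : Cm n → Cm n} {z : Cm n} (h : ContDiffAt ℂ ω τ z) :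
    ContDiffAt ℂ ω (fun y => (jmat τ y).det) z := by
  simp only [Matrix.det_apply']
  exact ContDiffAt.sum fun σ _ => contDiffAt_const.mul (contDiffAt_prod fun i _ => jmat_holo h _ _)

/-- invariance of the scalar curvature under local biholomorphisms -/
lemma scal_pull {g g' : Cm n → Matrix (Fin n) (Fin n) ℂ} {τ : Cm n → Cm n} {z : Cm n}
    (hτ : ContDiffAt ℂ ω τ z) (hJ : (jmat τ z).det ≠ 0)
    (hs : ∀ i j, ContDiffAt ℝ ∞ (fun y => g' y i j) (τ z)) (hp : 0 < (g' (τ z)).det.re)
    (h : g =ᶠ[𝓝 z] fun y => (jmat τ y).transpose * g' (τ y) * (jmat τ y).map (starRingEnd ℂ)) :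
    scal g z = scal g' (τ z) := by
  have hd : ContDiffAt ℝ ∞ (fun y => (g' y).det.re) (τ z) :=
    Complex.reCLM.contDiff.contDiffAt.comp (τ z) (contDiffAt_det hs)
  have hl : ContDiffAt ℝ 2 (fun y => Real.log (g' y).det.re) (τ z) := (hd.log hp.ne').of_le two_le
  have hτ' : ContDiffAt ℝ 2 τ z := (hτ.restrict_scalars ℝ).of_le le_top
  have hj := jmat_det_holo hτ
  have h1 : (fun y => Real.log (g y).det.re) =ᶠ[𝓝 z] fun y => Real.log (g' (τ y)).det.re +
      Real.log (‖(jmat τ y).det‖ ^ 2) := by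
    filter_upwards [h, hj.continuousAt.eventually_ne hJ,
      hτ.continuousAt.eventually (hd.continuousAt.eventually_ne hp.ne')] with y hy h2 h3
    rw [hy, det_pull, Real.log_mul (pow_ne_zero 2 (norm_ne_zero_iff.2 h2)) h3, add_comm]
  have h2 : ContDiffAt ℝ 2 (fun y => Real.log (‖(jmat τ y).det‖ ^ 2)) z :=
    (((hj.restrict_scalars ℝ).of_le le_top).norm_sq ℝ).log
      (pow_ne_zero 2 (norm_ne_zero_iff.2 hJ))
  unfold scal
  rw [cHess_congr h1, cHess_add (f := fun y => Real.log (g' (τ y)).det.re) (hl.comp z hτ') h2,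
    cHess_log_norm_sq hj hJ, add_zero,
    cHess_comp hl hτ, h.eq_of_nhds, Matrix.mul_neg, Matrix.mul_neg, Matrix.trace_neg,
    Matrix.trace_neg, trace_form (isUnit_iff_ne_zero.2 hJ)]

variable {X : Type*} [TopologicalSpace X] [ChartedSpace (Cm n) X]
  {w : Chart n X → Cm n → Matrix (Fin n) (Fin n) ℂ} {e e' : Chart n X} {x : X} {s b : ℝ}
  {J : Set ℝ} {φ : ℝ → X → ℝ} {U : X → X} {u : X → ℝ}

lemma IsIso.nhds (hU : IsIso w U) (h : At e x) (h' : At e' (U x)) :
    ∀ᶠ z in 𝓝 (e x), z ∈ e.target ∧ At e (e.symm z) ∧ At e' (U (e.symm z)) := by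
  have h2 : ∀ᶠ z in 𝓝 (e x), U (e.symm z) ∈ e'.source :=
    (hU.cont.continuousAt.comp (e.continuousAt_symm h.mem_target)).eventually
      (e'.open_source.mem_nhds (by simpa [h.left_inv] using h'.2))
  filter_upwards [h.nhds_target, h2] with z hz hz'
  exact ⟨hz, At.of_target h.1 hz, ⟨h'.1, hz'⟩⟩

lemma IsIso.addDd (hU : IsIso w U) (hu : SmoothFn (n := n) u) (h : At e x) (h' : At e' (U x)) :
    addDd w (fun x => u (U x)) e (e x) =
      (jmat (fun z => e' (U (e.symm z))) (e x)).transpose * addDd w u e' (e' (U x)) *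
        (jmat (fun z => e' (U (e.symm z))) (e x)).map (starRingEnd ℂ) := by
  have h1 : (fun y => u (U (e.symm y))) =ᶠ[𝓝 (e x)] fun y => u (e'.symm (e' (U (e.symm y)))) := by
    filter_upwards [hU.nhds h h'] with z hz
    rw [hz.2.2.left_inv]
  have h2 := cHess_comp (τ := fun z => e' (U (e.symm z))) (f := fun y => u (e'.symm y)) (z := e x)
    (by rw [h.left_inv]; exact (hu e' _ h').of_le two_le) (hU.holo e e' x h h')
  unfold P264Z.addDd
  rw [cHess_congr h1, h2, hU.pres e e' x h h', h.left_inv, Matrix.mul_add, Matrix.add_mul]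

lemma IsIso.det_ne (hU : IsIso w U) (hw : IsKahler w) (h : At e x) (h' : At e' (U x)) :
    (jmat (fun z => e' (U (e.symm z))) (e x)).det ≠ 0 := by
  intro h0
  have := det_re_pos (hw.posDef e x h)
  rw [hU.pres e e' x h h', det_pull, h0] at this
  simp at this

theorem IsCalabiFlow.pull (hU : IsIso w U) (hw : IsKahler w) (h : IsCalabiFlow w s J φ) :
    IsCalabiFlow w s J fun t x => φ t (U x) where
  smooth t ht e x hx := by
    have h' := AMP.at_chartAt (n := n) (U x)
    have h1 : ContDiffAt ℝ ∞ (fun p : ℝ × Cm n => (p.1, chartAt (Cm n) (U x) (U (e.symm p.2))))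
        (t, e x) := contDiffAt_fst.prodMk
      (ContDiffAt.comp (t, e x) (g := fun z => chartAt (Cm n) (U x) (U (e.symm z)))
        (((hU.holo e _ x hx h').restrict_scalars ℝ).of_le le_top) contDiffAt_snd)
    have h2 := ContDiffWithinAt.comp (t, e x)
      (g := fun p : ℝ × Cm n => φ p.1 ((chartAt (Cm n) (U x)).symm p.2))
      (by simpa [hx.left_inv] using h.smooth t ht _ _ h') (h1.contDiffWithinAt (s := J ×ˢ univ))
      (t := J ×ˢ univ) fun p hp => ⟨hp.1, mem_univ _⟩
    have h3 : ∀ᶠ p : ℝ × Cm n in 𝓝 (t, e x), φ p.1 (U (e.symm p.2)) =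
        φ p.1 ((chartAt (Cm n) (U x)).symm (chartAt (Cm n) (U x) (U (e.symm p.2)))) := by
      filter_upwards [(continuous_snd.tendsto (t, e x)).eventually (hU.nhds hx h')] with p hp
      rw [hp.2.2.left_inv]
    exact h2.congr_of_eventuallyEq (mem_nhdsWithin_of_mem_nhds h3) h3.self_of_nhds
  init x := h.init _
  pos t ht e x hx := by
    have h' := AMP.at_chartAt (n := n) (U x)
    rw [hU.addDd (h.smoothFn ht) hx h']
    exact posDef_form (h.pos t ht _ _ h') (isUnit_iff_ne_zero.2 (hU.det_ne hw hx h'))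
  eqn t ht e x hx := by
    have h' := AMP.at_chartAt (n := n) (U x)
    have h1 := scal_pull (g := addDd w (fun x => φ t (U x)) e)
      (g' := addDd w (φ t) (chartAt (Cm n) (U x))) (hU.holo e _ x hx h') (hU.det_ne hw hx h')
      (fun i j => by rw [hx.left_inv]; exact (h.smJ_g hw ht h' i j).slice ht)
      (by rw [hx.left_inv]; exact det_re_pos (h.pos t ht _ _ h')) (by
        filter_upwards [hU.nhds hx h'] with z hz
        have := hU.addDd (h.smoothFn ht) hz.2.1 hz.2.2
        rwa [e.right_inv hz.1] at this)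
    rw [h1, hx.left_inv]
    exact h.eqn t ht _ _ h'

/-- the flow is invariant under the holomorphic isometries of the initial metric -/
theorem IsCalabiFlow.invariant [IsManifold 𝓘(ℂ, Cm n) ω X] [T2Space X] [CompactSpace X]
    (hU : IsIso w U) (hw : IsKahler w) (hb : 0 < b) (h : IsCalabiFlow w s (Icc 0 b) φ) :
    ∀ t ∈ Icc 0 b, ∀ x, φ t (U x) = φ t x := (h.pull hU hw).unique hw hb h

end Vale.Agent.P264Z

end
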