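import Vale.Agent.P264Z.G.GDefs
import Vale.Agent.P220.H446.Wh

/-!
# Invariant functions on projective space are smooth functions of `Y`
-/

open scoped Manifold ContDiff ComplexOrder Topology
open Set Filter

noncomputable section

namespace Vale.Agent.P264Z

open Vale.Agent.P272.K

namespace Red

lemma exists_sq {T : ℝ} (hT : 1 < T) {h : ℝ × ℝ → ℝ} (hh : ContDiffOn ℝ ∞ h (Ico 0 T ×ˢ univ))
    (he : ∀ t ∈ Icc (0 : ℝ) 1, ∀ s, h (t, -s) = h (t, s)) :
    ∃ G : ℝ × ℝ → ℝ, ContDiff ℝ ∞ G ∧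
      ∀ t ∈ Icc (0 : ℝ) 1, ∀ s, s ^ 2 ≤ 2 → G (t, s ^ 2) = h (t, s) := by
  set η : ℝ → ℝ := fun t => Real.smoothTransition (1 - 2 * (t - 1) / (T - 1)) with hη
  have hηs : ContDiff ℝ ∞ η := Real.smoothTransition.contDiff.comp
    (contDiff_const.sub ((contDiff_const.mul (contDiff_id.sub contDiff_const)).div_const _))
  have hT' : 0 < T - 1 := sub_pos.2 hT
  have h1 : ContDiffOn ℝ ∞ (fun p : ℝ × ℝ => η p.2 * h (p.2, p.1)) {p | 0 ≤ p.2} := by
    intro p hp
    by_cases hpT : p.2 < T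
    · refine (hηs.comp contDiff_snd).contDiffWithinAt.mul ?_
      have h2 : ContDiffWithinAt ℝ ∞ (fun p : ℝ × ℝ => h (p.2, p.1)) {p | p.2 ∈ Ico 0 T} p :=
        ContDiffWithinAt.comp p (g := h) (f := fun p : ℝ × ℝ => (p.2, p.1))
          (hh (p.2, p.1) ⟨⟨hp, hpT⟩, mem_univ _⟩)
          (contDiffWithinAt_snd.prodMk contDiffWithinAt_fst) fun q hq => ⟨hq, mem_univ _⟩
      refine h2.mono_of_mem_nhdsWithin ?_
      filter_upwards [self_mem_nhdsWithin, mem_nhdsWithin_of_mem_nhds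
        ((isOpen_lt continuous_snd continuous_const).mem_nhds hpT)] with q h3 h4 using ⟨h3, h4⟩
    · have h3 : ∀ᶠ q : ℝ × ℝ in 𝓝 p, η q.2 * h (q.2, q.1) = 0 := by
        have : (1 + T) / 2 < p.2 := by linarith [not_lt.1 hpT]
        filter_upwards [(isOpen_lt continuous_const continuous_snd).mem_nhds this] with q hq
        have hq' : (1 + T) / 2 < q.2 := hq
        rw [hη]
        beta_reduce
        rw [Real.smoothTransition.zero_of_nonpos, zero_mul]
        rw [sub_nonpos, le_div_iff₀ hT']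
        linarith
      exact ((contDiffAt_const (c := (0 : ℝ))).congr_of_eventuallyEq h3).contDiffWithinAt
  obtain ⟨H, hH, hH'⟩ := P220.H446.half_ext h1 (R := 3) (by norm_num)
  have hv : ∀ t ∈ Icc (0 : ℝ) 1, ∀ s, |s| < 3 → H (s, t) = h (t, s) := by
    intro t ht s hs
    rw [hH' (s, t) ht.1 (by
      rw [Prod.norm_def]
      exact max_lt hs (by rw [Real.norm_eq_abs, abs_of_nonneg ht.1]; linarith [ht.2])), hη]
    beta_reduce
    rw [Real.smoothTransition.one_of_one_le, one_mul]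
    have : 2 * (t - 1) / (T - 1) ≤ 0 := div_nonpos_of_nonpos_of_nonneg (by linarith [ht.2]) hT'.le
    linarith
  obtain ⟨G, hG, hG'⟩ := P220.H446.exists_even
    (F := fun p : ℝ × ℝ => (H (p.2, p.1) + H (-p.2, p.1)) / 2)
    (((hH.comp (contDiff_snd.prodMk contDiff_fst)).add
      (hH.comp (contDiff_snd.neg.prodMk contDiff_fst))).div_const _)
    (fun w x => by simp [add_comm]) (R := 3) (by norm_num)
  refine ⟨G, hG, fun t ht s hs => ?_⟩
  have hs' : |s| < 3 := abs_lt_of_sq_lt_sq (by linarith) (by norm_num)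
  rw [hG' t s (by rw [Real.norm_eq_abs, abs_of_nonneg ht.1]; linarith [ht.2]) (by linarith)]
  simp only
  rw [hv t ht s hs', hv t ht (-s) (by rwa [abs_neg]), he t ht]
  ring

variable {n : ℕ}

lemma nsq_smul {ι : Type*} [Fintype ι] (a : ℂ) (v : ι → ℂ) : nsq (a • v) = ‖a‖ ^ 2 * nsq v := by
  simp [nsq, Finset.mul_sum, mul_pow]

lemma Yc_mk (v : CP.V0 n) : Yc (CP.mk v) = 1 - ‖v.1 0‖ ^ 2 / nsq v.1 := by
  obtain ⟨a, ha, h⟩ := CP.exists_rep v
  unfold Yc
  rw [h, nsq_smul, Pi.smul_apply, smul_eq_mul, norm_mul, mul_pow,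
    mul_div_mul_left _ _ (pow_ne_zero 2 (norm_ne_zero_iff.2 ha))]

lemma nsq_ins (i : Fin (n + 1)) (z : Cm n) : nsq (CP.ins i z) = 1 + nsq z := by
  unfold nsq
  rw [Fin.sum_univ_succAbove _ i]
  simp

lemma Yc_mem (p : CP n) : Yc p ∈ Icc (0 : ℝ) 1 := by
  have h1 : ‖(CP.rep p).1 0‖ ^ 2 ≤ nsq (CP.rep p).1 :=
    Finset.single_le_sum (f := fun i => ‖(CP.rep p).1 i‖ ^ 2) (fun _ _ => sq_nonneg _)
      (Finset.mem_univ 0)
  have h2 : 0 ≤ nsq (CP.rep p).1 := (sq_nonneg _).trans h1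
  exact ⟨sub_nonneg.2 (div_le_one_of_le₀ h1 h2), sub_le_self _ (div_nonneg (sq_nonneg _) h2)⟩

variable [NeZero n]

/-- a real line in a chart -/
def ln (n : ℕ) [NeZero n] (s : ℝ) : Cm n := Pi.single 0 (s : ℂ)

lemma contDiff_ln : ContDiff ℝ ∞ (ln n) :=
  contDiff_pi.2 fun i => by
    by_cases h : i = 0
    · subst h
      simp only [ln, Pi.single_eq_same]
      exact Complex.ofRealCLM.contDiff
    · simpa [ln, h] using contDiff_const

lemma nsq_ln (s : ℝ) : nsq (ln n s) = s ^ 2 := by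
  unfold nsq
  rw [Finset.sum_eq_single 0 (fun i _ h => by simp [ln, h]) (by simp)]
  simp [ln]

lemma Yc_zero (s : ℝ) : Yc (CP.pt 0 (ln n s)) = 1 - 1 / (1 + s ^ 2) := by
  unfold CP.pt
  rw [Yc_mk]
  simp [nsq_ins, nsq_ln]

lemma Yc_one (s : ℝ) : Yc (CP.pt (Fin.succ 0) (ln n s)) = 1 - s ^ 2 / (1 + s ^ 2) := by
  unfold CP.pt
  rw [Yc_mk]
  have : CP.ins (Fin.succ 0) (ln n s) 0 = s := by
    have h := CP.ins_succAbove (Fin.succ 0) (ln n s) 0
    rw [Fin.succ_succAbove_zero] at h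
    rw [h]; simp [ln]
  simp only [this]
  simp [nsq_ins, nsq_ln]

end Red

open Red in
theorem exists_profile {n : ℕ} [NeZero n] {T : ℝ} (hT : 1 < T) {φ : ℝ → CP n → ℝ}
    (hs : ∀ t ∈ Ico 0 T, ∀ (e : Chart n (CP n)) x, At e x → ContDiffWithinAt ℝ ∞
      (fun p : ℝ × Cm n => φ p.1 (e.symm p.2)) (Ico 0 T ×ˢ univ) (t, e x))
    (hinv : ∀ t ∈ Icc (0 : ℝ) 1, ∀ p q, Yc p = Yc q → φ t p = φ t q) :
    ∃ f : ℝ × ℝ → ℝ, ContDiff ℝ ∞ f ∧ ∀ t ∈ Icc (0 : ℝ) 1, ∀ p, φ t p = f (t, Yc p) := by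
  have sm : ∀ i, ContDiffOn ℝ ∞ (fun p : ℝ × ℝ => φ p.1 (CP.pt i (ln n p.2)))
      (Ico 0 T ×ˢ univ) := by
    intro i p hp
    have h1 := hs p.1 hp.1 _ _ (CP.at_pt i (ln n p.2))
    rw [CP.chart_pt] at h1
    exact ContDiffWithinAt.comp p (g := fun p : ℝ × Cm n => φ p.1 ((CP.chart i).symm p.2))
      (f := fun p : ℝ × ℝ => (p.1, ln n p.2)) h1
      (contDiff_fst.prodMk (contDiff_ln.comp contDiff_snd)).contDiffWithinAt
      fun q hq => ⟨hq.1, mem_univ _⟩
  obtain ⟨G0, hG0, h0⟩ := exists_sq hT (sm 0) fun t ht s =>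
    hinv t ht _ _ (by simp only [Yc_zero, neg_sq])
  obtain ⟨G1, hG1, h1⟩ := exists_sq hT (sm (Fin.succ 0)) fun t ht s =>
    hinv t ht _ _ (by simp only [Yc_one, neg_sq])
  set χ : ℝ → ℝ := fun y => Real.smoothTransition (2 - 3 * y) with hχ
  have hχs : ContDiff ℝ ∞ χ := Real.smoothTransition.contDiff.comp
    (contDiff_const.sub (contDiff_const.mul contDiff_id))
  have χ0 : ∀ y, 2 / 3 ≤ y → χ y = 0 := fun y hy =>
    Real.smoothTransition.zero_of_nonpos (by linarith)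
  have χ1 : ∀ y, y ≤ 1 / 3 → χ y = 1 := fun y hy =>
    Real.smoothTransition.one_of_one_le (by linarith)
  refine ⟨fun p => χ p.2 * G0 (p.1, p.2 / (1 - p.2)) + (1 - χ p.2) * G1 (p.1, (1 - p.2) / p.2),
    ContDiff.add ?_ ?_, fun t ht p => ?_⟩
  · refine contDiff_iff_contDiffAt.2 fun p => ?_
    by_cases hp : p.2 < 1
    · exact (hχs.comp contDiff_snd).contDiffAt.mul (hG0.contDiffAt.comp p (contDiffAt_fst.prodMk
        (contDiffAt_snd.div (contDiffAt_const.sub contDiffAt_snd) (sub_pos.2 hp).ne')))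
    · refine (contDiffAt_const (c := (0 : ℝ))).congr_of_eventuallyEq ?_
      have : 2 / 3 < p.2 := by linarith [not_lt.1 hp]
      filter_upwards [(isOpen_lt continuous_const continuous_snd).mem_nhds this] with q hq
      rw [χ0 _ (le_of_lt hq), zero_mul]
  · refine contDiff_iff_contDiffAt.2 fun p => ?_
    by_cases hp : 0 < p.2
    · exact (contDiff_const.sub (hχs.comp contDiff_snd)).contDiffAt.mul
        (hG1.contDiffAt.comp p (contDiffAt_fst.prodMk
        ((contDiffAt_const.sub contDiffAt_snd).div contDiffAt_snd hp.ne')))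
    · refine (contDiffAt_const (c := (0 : ℝ))).congr_of_eventuallyEq ?_
      have : p.2 < 1 / 3 := by linarith [not_lt.1 hp]
      filter_upwards [(isOpen_lt continuous_snd continuous_const).mem_nhds this] with q hq
      rw [χ1 _ (le_of_lt hq), sub_self, zero_mul]
  · have hy := Yc_mem p
    set y := Yc p with hyp
    have a0 : y ≤ 2 / 3 → G0 (t, y / (1 - y)) = φ t p := fun h => by
      have h2 : 0 < 1 - y := by linarith
      have h3 : √(y / (1 - y)) ^ 2 = y / (1 - y) := Real.sq_sqrt (div_nonneg hy.1 h2.le)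
      rw [← h3, h0 t ht _ (by rw [h3, div_le_iff₀ h2]; linarith)]
      refine hinv t ht _ _ ?_
      rw [Yc_zero, h3, ← hyp]
      field_simp
      ring
    have a1 : 1 / 3 ≤ y → G1 (t, (1 - y) / y) = φ t p := fun h => by
      have h2 : 0 < y := by linarith
      have h3 : √((1 - y) / y) ^ 2 = (1 - y) / y :=
        Real.sq_sqrt (div_nonneg (sub_nonneg.2 hy.2) h2.le)
      rw [← h3, h1 t ht _ (by rw [h3, div_le_iff₀ h2]; linarith)]
      refine hinv t ht _ _ ?_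
      rw [Yc_one, h3, ← hyp]
      field_simp
      ring
    simp only
    rcases le_total y (1 / 3) with h | h
    · rw [χ1 y h, a0 (by linarith)]; ring
    rcases le_total (2 / 3) y with h' | h'
    · rw [χ0 y h', a1 h]; ring
    · rw [a0 h', a1 h]; ring

end Vale.Agent.P264Z

end
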