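import Vale.Agent.P264Z.G.Fix

/-!
# Uniqueness of smooth solutions of the Calabi flow
-/

open scoped Manifold ContDiff ComplexOrder Topology
open Set Filter MeasureTheory

noncomputable section

namespace Vale.Agent.P264Z

open Vale.Agent.P272.K
open Vale.Agent.P272.K.INT (IsDensity intX part Part IsClosedForm)

variable {n : ℕ} {X : Type*} [TopologicalSpace X] [ChartedSpace (Cm n) X]
  {w : Chart n X → Cm n → Matrix (Fin n) (Fin n) ℂ} {e : Chart n X} {x : X} {s t b : ℝ}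
  {J J' : Set ℝ} {φ φ₁ φ₂ : ℝ → X → ℝ}

lemma IsCalabiFlow.mono (h : IsCalabiFlow w s J φ) (hJ : J' ⊆ J) : IsCalabiFlow w s J' φ where
  smooth t ht e x hx := (h.smooth t (hJ ht) e x hx).mono (prod_mono_left hJ)
  init := h.init
  pos t ht := h.pos t (hJ ht)
  eqn t ht e x hx := (h.eqn t (hJ ht) e x hx).mono hJ

lemma IsCalabiFlow.smJ (h : IsCalabiFlow w s J φ) (ht : t ∈ J) (hx : At e x) :
    SmJ J (fun p : ℝ × Cm n => φ p.1 (e.symm p.2)) (t, e x) := h.smooth t ht e x hx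

lemma IsCalabiFlow.smoothFn (h : IsCalabiFlow w s J φ) (ht : t ∈ J) : SmoothFn (n := n) (φ t) :=
  fun _ _ hx => (h.smJ ht hx).slice ht

lemma IsCalabiFlow.smJ_g (h : IsCalabiFlow w s J φ) (hw : IsKahler w) (ht : t ∈ J) (hx : At e x)
    (i j : Fin n) : SmJ J (fun p => addDd w (φ p.1) e p.2 i j) (t, e x) :=
  ContDiffWithinAt.add (SmJ.of_space (J := J) (t := t) (hw.smooth e x hx i j))
    ((h.smJ ht hx).cHess ht i j)

lemma IsCalabiFlow.smJ_det (h : IsCalabiFlow w s J φ) (hw : IsKahler w) (ht : t ∈ J)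
    (hx : At e x) : SmJ J (fun p => (addDd w (φ p.1) e p.2).det.re) (t, e x) :=
  SmJ.det_re (h.smJ_g hw ht hx)

lemma IsCalabiFlow.cw_g (h : IsCalabiFlow w s J φ) (hw : IsKahler w) (ht : t ∈ J) (hx : At e x) :
    ContinuousWithinAt (fun p : ℝ × Cm n => addDd w (φ p.1) e p.2) (J ×ˢ univ) (t, e x) :=
  cw_matrix (h.smJ_g hw ht hx)

lemma IsCalabiFlow.cw_inv (h : IsCalabiFlow w s J φ) (hw : IsKahler w) (ht : t ∈ J)
    (hx : At e x) :
    ContinuousWithinAt (fun p : ℝ × Cm n => (addDd w (φ p.1) e p.2)⁻¹) (J ×ˢ univ) (t, e x) :=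
  P264Z.cw_inv (h.cw_g hw ht hx) (h.pos t ht e x hx).det_pos.ne'

lemma IsCalabiFlow.cw_ric (h : IsCalabiFlow w s J φ) (hw : IsKahler w) (ht : t ∈ J)
    (hx : At e x) : ContinuousWithinAt
      (fun p : ℝ × Cm n => cHess (logdet (addDd w (φ p.1)) e) p.2) (J ×ˢ univ) (t, e x) := by
  have h1 : SmJ J (fun p => logdet (addDd w (φ p.1)) e p.2) (t, e x) :=
    ContDiffWithinAt.log (h.smJ_det hw ht hx) (det_re_pos (h.pos t ht e x hx)).ne'
  exact cw_matrix fun i j => h1.cHess ht i j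

variable [IsManifold 𝓘(ℂ, Cm n) ω X]

lemma IsCalabiFlow.isKahler (h : IsCalabiFlow w s J φ) (hw : IsKahler w) (ht : t ∈ J) :
    IsKahler (addDd w (φ t)) := isKahler_addDd hw (h.smoothFn ht) (h.pos t ht)

variable [T2Space X] [CompactSpace X]

/-- a bound which is uniform over the pieces -/
lemma exists_bound_KK {a b : ℝ} {G : Chart n X → ℝ × Cm n → ℝ}
    (hG : ∀ t ∈ Icc a b, ∀ e x, At e x → ContinuousWithinAt (G e) (Icc a b ×ˢ univ) (t, e x)) :
    ∃ C, 0 < C ∧ ∀ t ∈ Icc a b, ∀ i, ∀ z ∈ KK n X i, G ((part n X).e i) (t, z) ≤ C := by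
  have : ∀ i, ∃ C, 0 < C ∧ ∀ t ∈ Icc a b, ∀ z ∈ KK n X i, G ((part n X).e i) (t, z) ≤ C :=
    fun i => exists_bound (isCompact_KK i) fun t ht z hz => by
      obtain ⟨x, hx, rfl⟩ := KK_at hz
      exact hG t ht _ x hx
  choose C hC hb using this
  refine ⟨1 + ∑ i, C i, add_pos_of_pos_of_nonneg one_pos (Finset.sum_nonneg fun i _ => (hC i).le),
    fun t ht i z hz => (hb i t ht z hz).trans ?_⟩
  linarith [Finset.single_le_sum (f := C) (fun i _ => (hC i).le) (Finset.mem_univ i)]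

/-- the derivative of the energy -/
lemma energy_deriv (hw : IsKahler w) (hb : 0 < b) (h1 : IsCalabiFlow w s (Icc 0 b) φ₁)
    (h2 : IsCalabiFlow w s (Icc 0 b) φ₂) :
    ContinuousOn (fun t => intX fun (e : Chart n X) z => (φ₂ t (e.symm z) - φ₁ t (e.symm z)) ^ 2 *
      (addDd w (φ₂ t) e z).det.re) (Icc 0 b) ∧ ∃ (C : ℝ) (E' : ℝ → ℝ), ∀ t ∈ Ioo 0 b,
      HasDerivAt (fun t => intX fun (e : Chart n X) z =>
        (φ₂ t (e.symm z) - φ₁ t (e.symm z)) ^ 2 * (addDd w (φ₂ t) e z).det.re) (E' t) t ∧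
      E' t ≤ 2 * intX (fun (e : Chart n X) z => (φ₂ t (e.symm z) - φ₁ t (e.symm z)) *
        ((scal (addDd w (φ₂ t) e) z - scal (addDd w (φ₁ t) e) z) * (addDd w (φ₂ t) e z).det.re)) +
        C * intX fun (e : Chart n X) z =>
          (φ₂ t (e.symm z) - φ₁ t (e.symm z)) ^ 2 * (addDd w (φ₂ t) e z).det.re := by
  set P := part n X with hP
  set d : Chart n X → ℝ × Cm n → ℝ := fun e p => (addDd w (φ₂ p.1) e p.2).det.re with hd
  set G : Fin P.N → ℝ × Cm n → ℝ := fun i p => P.ρ i ((P.e i).symm p.2) *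
    ((φ₂ p.1 ((P.e i).symm p.2) - φ₁ p.1 ((P.e i).symm p.2)) ^ 2 * d (P.e i) p) with hG
  have hGs : ∀ i, ∀ t ∈ Icc 0 b, ∀ z ∈ KK n X i, SmJ (Icc 0 b) (G i) (t, z) := by
    intro i t ht z hz
    obtain ⟨x, hx, rfl⟩ := KK_at hz
    exact ContDiffWithinAt.mul (SmJ.of_space (J := Icc 0 b) (t := t) (P.smooth i _ x hx))
      (((ContDiffWithinAt.sub (h2.smJ ht hx) (h1.smJ ht hx)).pow 2).mul (h2.smJ_det hw ht hx))
  have hI := fun i => int_deriv (isCompact_KK i) hb (hGs i)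
  obtain ⟨C, -, hC⟩ := exists_bound_KK (a := 0) (b := b)
    (G := fun (e : Chart n X) p => dT (Icc 0 b) (d e) p / d e p) fun t ht e x hx =>
      ((h2.smJ_det hw ht hx).dT_cont ht (uniqueDiffOn_Icc hb)).div
        (h2.smJ_det hw ht hx).continuousWithinAt (det_re_pos (h2.pos t ht e x hx)).ne'
  simp only [intX_eq_KK (fun (e : Chart n X) z => (φ₂ _ (e.symm z) - φ₁ _ (e.symm z)) ^ 2 *
      (addDd w (φ₂ _) e z).det.re)]
  refine ⟨continuousOn_finsetSum _ fun i _ => (hI i).1, C,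
    fun t => ∑ i, ∫ z in KK n X i, dT (Icc 0 b) (G i) (t, z), fun t ht =>
      ⟨HasDerivAt.fun_sum fun i _ => ((hI i).2 t ht).2, ?_⟩⟩
  have ht' : t ∈ Icc 0 b := Ioo_subset_Icc_self ht
  have hn : Icc 0 b ∈ 𝓝 t := Icc_mem_nhds ht.1 ht.2
  have k1 := (h1.isKahler hw ht').toIsHermitian
  have k2 := (h2.isKahler hw ht').toIsHermitian
  have cψ : Continuous fun x => φ₂ t x - φ₁ t x :=
    (INT.SmoothFn.continuous (h2.smoothFn ht')).sub (INT.SmoothFn.continuous (h1.smoothFn ht'))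
  have d0 : IsDensity fun e z => (addDd w (φ₂ t) e z).det.re :=
    INT.isDensity_det k2.change k2.smooth
  have d1 := (densMul d0 (fun e x h => ((scal_smooth k2 h).sub (scal_smooth k1 h)).continuousAt)
      fun e e' x h h' => by rw [scal_change k2 h h', scal_change k1 h h']).smul cψ
  have d2 := d0.smul (cψ.pow 2)
  simp only [Pi.pow_apply] at d2
  rw [← intX_eq_KK (fun (e : Chart n X) z => (φ₂ t (e.symm z) - φ₁ t (e.symm z)) ^ 2 *
      (addDd w (φ₂ t) e z).det.re), ← INT.intX_const_mul, ← INT.intX_const_mul,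
    ← INT.intX_add (d1.const_mul 2) (d2.const_mul C), intX_eq_KK]
  refine Finset.sum_le_sum fun i _ => setIntegral_mono_on ((hI i).2 t ht).1
    (integrableOn_KK ((d1.const_mul 2).add (d2.const_mul C)) i) (isCompact_KK i).measurableSet
    fun z hz => ?_
  have a1 := (hGs i t ht' z hz).hasDerivAt hn
  have c1 := hC t ht' i z hz
  obtain ⟨x, hx, rfl⟩ := KK_at hz
  have a2 := (((((h2.eqn t ht' _ x hx).hasDerivAt hn).sub
    ((h1.eqn t ht' _ x hx).hasDerivAt hn)).pow 2).mul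
      ((h2.smJ_det hw ht' hx).hasDerivAt hn)).const_mul (P.ρ i x)
  have p2 : 0 < d (P.e i) (t, P.e i x) := det_re_pos (h2.pos t ht' _ x hx)
  rw [div_le_iff₀ p2] at c1
  have hl : (P.e i).symm ((part n X).e i x) = x := hx.left_inv
  have a3 := a1.unique (a2.congr_of_eventuallyEq (Eventually.of_forall fun τ => by
    simp only [hG, hl]; rfl))
  rw [hx.left_inv, a3]
  refine mul_le_mul_of_nonneg_left ?_ (P.nonneg i x)
  have := mul_le_mul_of_nonneg_left c1 (sq_nonneg (φ₂ t x - φ₁ t x))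
  simp only [Pi.pow_apply, Pi.sub_apply, hd] at this ⊢
  norm_num
  linarith

/-- **Uniqueness** for the Calabi flow. -/
theorem IsCalabiFlow.unique (hw : IsKahler w) (hb : 0 < b) (h1 : IsCalabiFlow w s (Icc 0 b) φ₁)
    (h2 : IsCalabiFlow w s (Icc 0 b) φ₂) : ∀ t ∈ Icc 0 b, ∀ x, φ₁ t x = φ₂ t x := by
  obtain ⟨hc, C', E', hE⟩ := energy_deriv hw hb h1 h2
  obtain ⟨C, hC0, hC⟩ := exists_bound_KK (a := 0) (b := b) (G := fun (e : Chart n X) p =>
    ((addDd w (φ₁ p.1) e p.2)⁻¹ * cHess (logdet (addDd w (φ₁ p.1)) e) p.2 *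
      (addDd w (φ₂ p.1) e p.2)⁻¹ *
      ((addDd w (φ₁ p.1) e p.2)⁻¹ * cHess (logdet (addDd w (φ₁ p.1)) e) p.2).conjTranspose *
      addDd w (φ₂ p.1) e p.2).trace.re) fun t ht e x hx =>
    cw_trace_re (((((h1.cw_inv hw ht hx).mul (h1.cw_ric hw ht hx)).mul (h2.cw_inv hw ht hx)).mul
      (cw_conjTranspose ((h1.cw_inv hw ht hx).mul (h1.cw_ric hw ht hx)))).mul (h2.cw_g hw ht hx))
  set ε : ℝ := 1 / (8 * (n : ℝ) ^ 2 + 2) with hε
  have hε0 : 0 < ε := by positivity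
  have hε1 : (8 * (n : ℝ) ^ 2 + 2) * ε ≤ 1 := by rw [hε, mul_one_div_cancel (by positivity)]
  have hcl : IsClosed ({t | ∀ x, φ₁ t x = φ₂ t x} ∩ Icc 0 b) := by
    have : {t | ∀ x, φ₁ t x = φ₂ t x} ∩ Icc 0 b =
        Icc 0 b ∩ ⋂ x, (Icc 0 b ∩ (fun t => φ₁ t x - φ₂ t x) ⁻¹' {0}) := by
      ext t
      simp only [mem_inter_iff, mem_ofPred_eq, mem_iInter, mem_preimage, mem_singleton_iff,
        sub_eq_zero]
      exact ⟨fun h => ⟨h.2, fun x => ⟨h.2, h.1 x⟩⟩, fun h => ⟨fun x => (h.2 x).2, h.1⟩⟩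
    rw [this]
    refine isClosed_Icc.inter (isClosed_iInter fun x => ContinuousOn.preimage_isClosed_of_isClosed
      (fun t ht => ?_) isClosed_Icc isClosed_singleton)
    exact (h1.eqn t ht _ x (AMP.at_chartAt x)).continuousWithinAt.sub
      (h2.eqn t ht _ x (AMP.at_chartAt x)).continuousWithinAt
  refine fun t ht => hcl.Icc_subset_of_forall_mem_nhdsWithin
    (fun x => by rw [h1.init, h2.init]) ?_ ht
  rintro a ⟨ha, ha'⟩
  have ha2 : a ∈ Icc 0 b := Ico_subset_Icc_self ha'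
  have hφ : φ₁ a = φ₂ a := funext ha
  have hsm : ∀ᶠ t in 𝓝 a, ∀ i, t ∈ Icc 0 b → ∀ z ∈ KK n X i,
      ((addDd w (φ₂ t) ((part n X).e i) z)⁻¹ *
        (addDd w (φ₂ t) ((part n X).e i) z - addDd w (φ₁ t) ((part n X).e i) z) *
        ((addDd w (φ₂ t) ((part n X).e i) z)⁻¹ *
        (addDd w (φ₂ t) ((part n X).e i) z - addDd w (φ₁ t) ((part n X).e i) z))).trace.re
          ≤ ε ^ 2 := by
    refine eventually_all.2 fun i => eventually_small (isCompact_KK i) (pow_pos hε0 2)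
      (G := fun p => ((addDd w (φ₂ p.1) ((part n X).e i) p.2)⁻¹ *
        (addDd w (φ₂ p.1) ((part n X).e i) p.2 - addDd w (φ₁ p.1) ((part n X).e i) p.2) *
        ((addDd w (φ₂ p.1) ((part n X).e i) p.2)⁻¹ *
        (addDd w (φ₂ p.1) ((part n X).e i) p.2 - addDd w (φ₁ p.1) ((part n X).e i) p.2))).trace.re)
      (fun z hz => ?_) fun z _ => by simp [hφ]
    obtain ⟨x, hx, rfl⟩ := KK_at hz
    have := (h2.cw_inv hw ha2 hx).mul ((h2.cw_g hw ha2 hx).sub (h1.cw_g hw ha2 hx))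
    exact cw_trace_re (this.mul this)
  obtain ⟨c, hac, hsub⟩ : ∃ c, a < c ∧ Icc a c ⊆ _ := mem_nhdsGE_iff_exists_Icc_subset.1
    (inter_mem (mem_nhdsWithin_of_mem_nhds hsm) (Icc_mem_nhdsGE ha'.2))
  have hI : Icc a c ⊆ Icc 0 b := fun t ht => ⟨ha'.1.trans ht.1, (hsub ht).2.2⟩
  have hcb : c ≤ b := (hI (right_mem_Icc.2 hac.le)).2
  have hψ : ∀ t ∈ Icc 0 b, SmoothFn (n := n) fun x => φ₂ t x - φ₁ t x := fun t ht =>
    AMP.sm_sub (h2.smoothFn ht) (h1.smoothFn ht)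
  have hz := gronwall_zero (C := C + C') (E' := E') (hc.mono hI)
    (fun t ht => (hE t ⟨ha'.1.trans_lt ht.1, ht.2.trans_le hcb⟩).1) (fun t ht => ?_)
    (by simp [hφ, INT.intX_zero])
  · filter_upwards [Ioc_mem_nhdsGT hac] with t ht x
    have ht' := hI (Ioc_subset_Icc_self ht)
    have k2 := (h2.isKahler hw ht').toIsHermitian
    obtain ⟨e, hx, h0⟩ := eq_zero_of_intX ((INT.isDensity_det k2.change k2.smooth).smul
      ((INT.SmoothFn.continuous (hψ t ht')).pow 2))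
      (fun e x hx => mul_nonneg (sq_nonneg _) (det_re_pos (k2.posDef e x hx)).le)
      (hz t (Ioc_subset_Icc_self ht)) x
    have := (mul_eq_zero.1 h0).resolve_right (det_re_pos (k2.posDef e x hx)).ne'
    rw [hx.left_inv] at this
    exact (sub_eq_zero.1 (pow_eq_zero_iff two_ne_zero |>.1 this)).symm
  · have ht' := hI (Ioo_subset_Icc_self ht)
    have h3 := (hE t ⟨ha'.1.trans_lt ht.1, ht.2.trans_le hcb⟩).2
    have h4 := int_ineq (h1.isKahler hw ht') (h2.isKahler hw ht') (hψ t ht') (fun e x hx => by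
      rw [cHess_sub ((h2.smoothFn ht' e x hx).of_le two_le) ((h1.smoothFn ht' e x hx).of_le two_le)]
      simp [addDd]) hε0.le hε1 hC0 (fun i => (hsub (Ioo_subset_Icc_self ht)).1 i ht') (hC t ht')
    linarith

end Vale.Agent.P264Z

end
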